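import Vale.Agent.P153.R2.LOC.Mult
import Vale.Agent.P153.R2.LAND.Stmt

/-!
# P153-R2, block LOC: the landing statement of block LAND implies the one used here
-/

namespace Vale.Agent.P153.R2.LOC

open Set Relation
open Vale.Agent.P153
open Vale.Agent.P153.Topo (Conn)
open Vale.Agent.P153.R2
open scoped Classical

theorem s_land_of {i : ℕ} (hi : 1 ≤ i) (h : LAND.S_land i) : S_land i := by
  obtain ⟨K, α, hK, hα, h⟩ := h
  refine ⟨α, hα, K + 1, by omega, (K + 1) * i + 1, by nlinarith, ?_⟩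
  intro V x₀ r p q hVf hV hx₀ hr hp hq hpr hqr
  have hi' : (1 : ℤ) ≤ i := by exact_mod_cast hi
  have hr1 : 1 ≤ r := by nlinarith
  set R : ℤ := (K + 1) * r with hR
  set A : Set Pt := {x | (x ∈ V ∧ x ∈ An x₀ r R) ∨ (x ∉ V ∧ (i : ℤ) < dep x₀ r R x)} with hA
  have hAV : ∀ x ∈ V, (x ∈ A ↔ x ∈ An x₀ r R) := by
    intro x hx
    constructor
    · rintro (h1 | h1)
      · exact h1.2
      · exact absurd hx h1.1
    · intro h1
      exact Or.inl ⟨hx, h1⟩
  have hAO : ∀ x, x ∉ V → (x ∈ A ↔ (i : ℤ) < dep x₀ r R x) := by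
    intro x hx
    constructor
    · rintro (h1 | h1)
      · exact absurd h1.1 hx
      · exact h1.2
    · intro h1
      exact Or.inr ⟨hx, h1⟩
  have hLJ : LAND.LJ V A (LW i V x₀ r R) i := by
    refine ⟨Dat_LW hVf, ⟨_, hL_Cfg i V x₀ r R⟩, hV, ?_, ?_, ?_, ?_⟩
    · intro x hx hxA
      unfold LW
      rw [if_pos hx, if_pos ((hAV x hx).1 hxA)]
    · intro x hx hxA b hb
      unfold LW at hb
      rw [if_pos hx, if_neg (fun h1 => hxA ((hAV x hx).2 h1))] at hb
      simp only [Set.mem_insert_iff, Set.mem_singleton_iff] at hb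
      omega
    · intro x hx hxA
      have h1 := (hAO x hx.1).1 hxA
      unfold LW
      rw [if_neg hx.1, if_pos hx, if_neg (by omega), if_neg (by omega)]
    · intro x hx hxA b hb
      have h1 : dep x₀ r R x ≤ i := by
        by_contra h2
        exact hxA ((hAO x hx.1).2 (by omega))
      unfold LW at hb
      rw [if_neg hx.1, if_pos hx] at hb
      split_ifs at hb with h2
      · simp only [Set.mem_insert_iff, Set.mem_singleton_iff] at hb
        omega
      · rw [Set.mem_singleton_iff] at hb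
        omega
  have hann : bx x₀ (R - i) \ bx x₀ (r + i) ⊆ A := by
    intro x hx
    rw [Set.mem_sdiff, mem_bx_iff, mem_bx_iff] at hx
    by_cases hxV : x ∈ V
    · rw [hAV x hxV, mem_An_iff]
      omega
    · rw [hAO x hxV]
      unfold dep
      omega
  have hpA : p ∉ A := fun h1 => by
    have h2 := (mem_An_iff.1 ((hAV p hp.1).1 h1)).1
    rw [mem_bx_iff] at hpr
    omega
  have hqA : q ∉ A := fun h1 => by
    have h2 := (mem_An_iff.1 ((hAV q hq.1).1 h1)).2
    rw [mem_bx_iff] at hqr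
    omega
  obtain ⟨op, hop1, hop2⟩ := hp.2
  obtain ⟨oq, hoq1, hoq2⟩ := hq.2
  have key := h V A (LW i V x₀ r R) hLJ x₀ (r + i) (R - i) hx₀ (by omega)
    (by rw [hR]; nlinarith) hann p hp.1 hpA
    (by rw [mem_bx_iff] at hpr ⊢; omega) ⟨op, hop2, hop1⟩ q hq.1 hqA
    (by rw [mem_bx_iff] at hqr ⊢; omega) ⟨oq, hoq2, hoq1⟩
  refine key.trans (Pr_mono fun g _ hg => ?_)
  exact PLAN.SepAtt.not_conn hg (by norm_num)

end Vale.Agent.P153.R2.LOC
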