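import Vale.Agent.P153.R2.LOC.MultW

/-!
# P153-R2, block LOC (MULT): shifts, reflections, and `{h ≠ w}`

The component version of MULT at an arbitrary odd level `w`, from below and from above, and for
paths of `{h ≠ w}`.
-/

namespace Vale.Agent.P153.R2.LOC

open Set Relation
open Vale.Agent.P153
open Vale.Agent.P153.Topo (Conn)
open Vale.Agent.P153.R2
open scoped Classical

variable {V F B A C : Set Pt} {x₀ p q x y : Pt} {r R Rw m e c w : ℤ} {J : ℕ} {g h η : Hg}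

/-- `h ↦ e h + c`. -/
def aff (e c : ℤ) (h : Hg) : Hg := fun x => e * h x + c

theorem aff_mem (he : e = 1 ∨ e = -1) (hc : Even c) (hh : h ∈ Cfg F (exa F η)) :
    aff e c h ∈ Cfg F (exa F (aff e c η)) := by
  refine ⟨fun x => ?_, fun x => ?_, fun x hx y hxy => ?_⟩
  · have h1 := hh.1 x
    obtain ⟨k, hk⟩ := hc
    obtain ⟨l, hl⟩ := h1
    unfold aff
    rcases he with rfl | rfl
    · exact ⟨l + k, by rw [hk, hl]; ring⟩
    · exact ⟨-l - 1 + k, by rw [hk, hl]; ring⟩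
  · by_cases hx : x ∈ F
    · rw [exa_in hx]; exact Set.mem_univ _
    · rw [exa_out hx]
      unfold aff
      rw [Cfg.eq_out hh hx]
      rfl
  · have h1 := hh.2.2 x hx y hxy
    unfold aff
    rw [abs_le] at h1 ⊢
    rcases he with rfl | rfl <;> omega

theorem aff_aff (he : e = 1 ∨ e = -1) (h : Hg) : aff e (-e * c) (aff e c h) = h := by
  funext x
  unfold aff
  rcases he with rfl | rfl <;> ring

theorem aff_bij (he : e = 1 ∨ e = -1) (hc : Even c) (F : Set Pt) (η : Hg) :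
    BijOn (aff e c) (Cfg F (exa F η)) (Cfg F (exa F (aff e c η))) := by
  have hc' : Even (-e * c) := hc.mul_left _
  refine ⟨fun h hh => aff_mem he hc hh, fun a _ b _ hab => ?_, fun h hh => ⟨aff e (-e * c) h, ?_, ?_⟩⟩
  · rw [← aff_aff (c := c) he a, hab, aff_aff he]
  · have := aff_mem he hc' hh
    rwa [aff_aff he] at this
  · funext x
    unfold aff
    rcases he with rfl | rfl <;> ring

theorem Pr_aff (he : e = 1 ∨ e = -1) (hc : Even c) (hF : F.Finite) (η : Hg) (A : Set Hg) :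
    Pr (Cfg F (exa F (aff e c η))) A = Pr (Cfg F (exa F η)) {h | aff e c h ∈ A} := by
  rw [Pr_eq_Ex (Cfg_finite (Dat_exa hF _)), Pr_eq_Ex (Cfg_finite (Dat_exa hF _)),
    Ex_bij (aff e c) (aff_bij he hc F η)]
  refine Ex_congr fun h _ => ?_
  unfold ind
  simp only [Set.mem_ofPred_eq]

/-- The attached part of `B ∩ {h ≤ a}`. -/
def Wdn (V B : Set Pt) (a : ℤ) (h : Hg) : Set Pt :=
  {x | ∃ y z, Conn (B ∩ dn h a) x y ∧ Adj y z ∧ z ∉ V}

theorem Wdn_subset : Wdn V B c h ⊆ B ∩ dn h c := by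
  rintro x ⟨y, z, h1, -, -⟩
  exact h1.left_mem

theorem Wat_aff_pos : Wat V B 1 (aff 1 (1 - w) h) = Wat V B w h := by
  have e : B ∩ up (aff 1 (1 - w) h) 1 = B ∩ up h w := by
    ext x
    simp only [up, aff, mem_inter_iff, mem_ofPred_eq]
    constructor
    · rintro ⟨h1, h2⟩; exact ⟨h1, by omega⟩
    · rintro ⟨h1, h2⟩; exact ⟨h1, by omega⟩
  unfold Wat
  rw [e]

theorem Wat_aff_neg : Wat V B 1 (aff (-1) (1 + w) h) = Wdn V B w h := by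
  have e : B ∩ up (aff (-1) (1 + w) h) 1 = B ∩ dn h w := by
    ext x
    simp only [up, dn, aff, mem_inter_iff, mem_ofPred_eq]
    constructor
    · rintro ⟨h1, h2⟩; exact ⟨h1, by omega⟩
    · rintro ⟨h1, h2⟩; exact ⟨h1, by omega⟩
  unfold Wat Wdn
  rw [e]

/-- Geometry: topological domain `V`, random sites `F`. -/
structure TW (V F : Set Pt) (x₀ : Pt) (ρ R : ℤ) (p : Pt) (η : Hg) : Prop where
  fin : V.Finite
  cc : CC V
  sub : F ⊆ V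
  ne : (Cfg F (exa F η)).Nonempty
  inn : ∀ x ∈ Co V x₀ R p, ρ < ds x₀ x → x ∈ F

theorem TW.aff {ρ : ℤ} (h : TW V F x₀ ρ R p η) (he : e = 1 ∨ e = -1) (hc : Even c) :
    TW V F x₀ ρ R p (aff e c η) := by
  obtain ⟨g, hg⟩ := h.ne
  exact ⟨h.fin, h.cc, h.sub, ⟨_, aff_mem he hc hg⟩, h.inn⟩

/-- MULT from below at the level `w`. -/
theorem multW_lo (j : ℕ) (hS : S_land (j + 2)) : ∀ ε : ℝ, 0 < ε → ∃ t : ℤ, 1 ≤ t ∧ ∃ ρ₀ : ℤ,
    1 ≤ ρ₀ ∧ ∀ (w : ℤ) (V F : Set Pt) (x₀ : Pt) (ρ R : ℤ) (p : Pt) (η : Hg) (N Q : Set Pt),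
      Odd w → TW V F x₀ ρ R p η → (∀ z ∈ ebd F, w - 2 * j - 2 ≤ η z) →
      (∀ z, z ∉ V → ∀ x ∈ Co V x₀ R p, Adj x z → ρ ≤ ds x₀ z → w ≤ η z) →
      x₀ ∉ V → ρ₀ ≤ ρ → t * ρ ≤ R → NO V p → p ∈ N →
      N ⊆ V → N ⊆ bx x₀ ρ → (∀ x ∈ N, Conn N p x) →
      Q ⊆ V → Disjoint Q (Co V x₀ R p) → (∀ x ∈ Q, ∀ y ∈ Q, Conn Q x y) →
      Pr (Cfg F (exa F η)) {h | ∃ x ∈ N, ∃ y ∈ Q,
        Conn (V \ Wat V (Co V x₀ R p ∩ An x₀ ρ R) w h) x y} ≤ ε := by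
  intro ε hε
  obtain ⟨t, ht, ρ₀, hρ₀, H⟩ := multW j hS ε hε
  refine ⟨t, ht, ρ₀, hρ₀, fun w V F x₀ ρ R p η N Q hw hT hlow hwall h1 h2 h3 h4 h5 h6 h7 h8 h9
    h10 h11 => ?_⟩
  have hc : Even (1 - w) := odd_one.sub_odd hw
  have hT' := hT.aff (c := 1 - w) (Or.inl rfl) hc
  have key := H V F x₀ ρ R p (aff 1 (1 - w) η) N Q
    ⟨hT'.fin, hT'.cc, hT'.sub, hT'.ne, fun z hz => by
      have := hlow z hz
      unfold aff
      omega, hT'.inn, fun z hz x hx hxz hρz => by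
      have := hwall z hz x hx hxz hρz
      unfold aff
      omega⟩ h1 h2 h3 h4 h5 h6 h7 h8 h9 h10 h11
  rw [Pr_aff (Or.inl rfl) hc (hT.fin.subset hT.sub)] at key
  refine le_trans (Pr_mono fun h _ hh => ?_) key
  simp only [Set.mem_ofPred_eq, Wat_aff_pos] at hh ⊢
  exact hh

/-- MULT from above at the level `w`. -/
theorem multW_hi (j : ℕ) (hS : S_land (j + 2)) : ∀ ε : ℝ, 0 < ε → ∃ t : ℤ, 1 ≤ t ∧ ∃ ρ₀ : ℤ,
    1 ≤ ρ₀ ∧ ∀ (w : ℤ) (V F : Set Pt) (x₀ : Pt) (ρ R : ℤ) (p : Pt) (η : Hg) (N Q : Set Pt),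
      Odd w → TW V F x₀ ρ R p η → (∀ z ∈ ebd F, η z ≤ w + 2 * j + 2) →
      (∀ z, z ∉ V → ∀ x ∈ Co V x₀ R p, Adj x z → ρ ≤ ds x₀ z → η z ≤ w) →
      x₀ ∉ V → ρ₀ ≤ ρ → t * ρ ≤ R → NO V p → p ∈ N →
      N ⊆ V → N ⊆ bx x₀ ρ → (∀ x ∈ N, Conn N p x) →
      Q ⊆ V → Disjoint Q (Co V x₀ R p) → (∀ x ∈ Q, ∀ y ∈ Q, Conn Q x y) →
      Pr (Cfg F (exa F η)) {h | ∃ x ∈ N, ∃ y ∈ Q,
        Conn (V \ Wdn V (Co V x₀ R p ∩ An x₀ ρ R) w h) x y} ≤ ε := by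
  intro ε hε
  obtain ⟨t, ht, ρ₀, hρ₀, H⟩ := multW j hS ε hε
  refine ⟨t, ht, ρ₀, hρ₀, fun w V F x₀ ρ R p η N Q hw hT hlow hwall h1 h2 h3 h4 h5 h6 h7 h8 h9
    h10 h11 => ?_⟩
  have hc : Even (1 + w) := odd_one.add_odd hw
  have hT' := hT.aff (e := -1) (c := 1 + w) (Or.inr rfl) hc
  have key := H V F x₀ ρ R p (aff (-1) (1 + w) η) N Q
    ⟨hT'.fin, hT'.cc, hT'.sub, hT'.ne, fun z hz => by
      have := hlow z hz
      unfold aff
      omega, hT'.inn, fun z hz x hx hxz hρz => by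
      have := hwall z hz x hx hxz hρz
      unfold aff
      omega⟩ h1 h2 h3 h4 h5 h6 h7 h8 h9 h10 h11
  rw [Pr_aff (Or.inr rfl) hc (hT.fin.subset hT.sub)] at key
  refine le_trans (Pr_mono fun h _ hh => ?_) key
  simp only [Set.mem_ofPred_eq, Wat_aff_neg] at hh ⊢
  exact hh

/-- Paths of `{h ≠ w}` through random sites have one sign. -/
theorem one_sign (hg : g ∈ Cfg F (exa F η)) (hw : Odd w)
    (h : Conn ((F ∩ {z | g z ≠ w}) ∪ {x, y}) x y) :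
    Conn ((F ∩ dn g (w - 2)) ∪ {x, y}) x y ∨ Conn ((F ∩ up g (w + 2)) ∪ {x, y}) x y := by
  set D : Set Pt := (F ∩ dn g (w - 2)) ∪ {x, y} with hD
  set U : Set Pt := (F ∩ up g (w + 2)) ∪ {x, y} with hU
  have hxD : x ∈ D := Or.inr (Or.inl rfl)
  have hyD : y ∈ D := Or.inr (Or.inr rfl)
  have hxU : x ∈ U := Or.inr (Or.inl rfl)
  have hyU : y ∈ U := Or.inr (Or.inr rfl)
  have key : ∀ u, Conn ((F ∩ {z | g z ≠ w}) ∪ {x, y}) x u →
      (Conn D x y ∨ Conn U x y) ∨ u = x ∨ (u ∈ F ∩ dn g (w - 2) ∧ Conn D x u) ∨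
        (u ∈ F ∩ up g (w + 2) ∧ Conn U x u) := by
    intro u hu
    refine Conn.ind (S := (F ∩ {z | g z ≠ w}) ∪ {x, y}) (fun u =>
      (Conn D x y ∨ Conn U x y) ∨ u = x ∨ (u ∈ F ∩ dn g (w - 2) ∧ Conn D x u) ∨
        (u ∈ F ∩ up g (w + 2) ∧ Conn U x u)) (Or.inr (Or.inl rfl)) ?_ hu
    intro a b ha hab hb ih
    rcases ih with ih | ih | ih | ih
    · exact Or.inl ih
    · subst ih
      rcases hb with hb | hb | hb
      · obtain ⟨k, hk⟩ := hg.1 b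
        obtain ⟨l, hl⟩ := hw
        have hne : g b ≠ w := hb.2
        rcases lt_or_gt_of_ne hne with h1 | h1
        · have h2 : b ∈ F ∩ dn g (w - 2) := ⟨hb.1, by show g b ≤ w - 2; omega⟩
          exact Or.inr (Or.inr (Or.inl ⟨h2, Conn.of_adj hxD (Or.inl h2) hab⟩))
        · have h2 : b ∈ F ∩ up g (w + 2) := ⟨hb.1, by show w + 2 ≤ g b; omega⟩
          exact Or.inr (Or.inr (Or.inr ⟨h2, Conn.of_adj hxU (Or.inl h2) hab⟩))
      · exact Or.inr (Or.inl hb)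
      · rw [Set.mem_singleton_iff] at hb
        subst hb
        exact Or.inl (Or.inl (Conn.of_adj hxD hyD hab))
    · rcases hb with hb | hb | hb
      · obtain ⟨k, hk⟩ := hg.1 b
        obtain ⟨l, hl⟩ := hw
        have hne : g b ≠ w := hb.2
        have h3 := hg.2.2 a ih.1.1 b hab
        have h4 : g a ≤ w - 2 := ih.1.2
        rw [abs_le] at h3
        have h2 : b ∈ F ∩ dn g (w - 2) := ⟨hb.1, by show g b ≤ w - 2; omega⟩
        exact Or.inr (Or.inr (Or.inl ⟨h2, ih.2.tail hab (Or.inl h2)⟩))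
      · exact Or.inr (Or.inl hb)
      · rw [Set.mem_singleton_iff] at hb
        subst hb
        exact Or.inl (Or.inl (ih.2.tail hab hyD))
    · rcases hb with hb | hb | hb
      · obtain ⟨k, hk⟩ := hg.1 b
        obtain ⟨l, hl⟩ := hw
        have hne : g b ≠ w := hb.2
        have h3 := hg.2.2 a ih.1.1 b hab
        have h4 : w + 2 ≤ g a := ih.1.2
        rw [abs_le] at h3
        have h2 : b ∈ F ∩ up g (w + 2) := ⟨hb.1, by show w + 2 ≤ g b; omega⟩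
        exact Or.inr (Or.inr (Or.inr ⟨h2, ih.2.tail hab (Or.inl h2)⟩))
      · exact Or.inr (Or.inl hb)
      · rw [Set.mem_singleton_iff] at hb
        subst hb
        exact Or.inl (Or.inr (ih.2.tail hab hyU))
  rcases key y h with h1 | h1 | h1 | h1
  · exact h1
  · subst h1
    exact Or.inl (Conn.refl hxD)
  · exact Or.inl h1.2
  · exact Or.inr h1.2

/-- **MULT for `{h ≠ w}`.** The walls next to the component have the height `w`; all the data are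
in `[w - 2 j - 2, w + 2 j + 2]`. The paths run through random sites, except for the two ends. -/
theorem multW_ne (j : ℕ) (hS : S_land (j + 2)) : ∀ ε : ℝ, 0 < ε → ∃ t : ℤ, 1 ≤ t ∧ ∃ ρ₀ : ℤ,
    1 ≤ ρ₀ ∧ ∀ (w : ℤ) (V F : Set Pt) (x₀ : Pt) (ρ R : ℤ) (p : Pt) (η : Hg) (N Q : Set Pt),
      Odd w → TW V F x₀ ρ R p η →
      (∀ z ∈ ebd F, w - 2 * j - 2 ≤ η z ∧ η z ≤ w + 2 * j + 2) →
      (∀ z, z ∉ V → ∀ x ∈ Co V x₀ R p, Adj x z → ρ ≤ ds x₀ z → η z = w) →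
      x₀ ∉ V → ρ₀ ≤ ρ → t * ρ ≤ R → NO V p → p ∈ N →
      N ⊆ V → N ⊆ bx x₀ ρ → (∀ x ∈ N, Conn N p x) →
      Q ⊆ V → Disjoint Q (Co V x₀ R p) → (∀ x ∈ Q, ∀ y ∈ Q, Conn Q x y) →
      Pr (Cfg F (exa F η)) {h | ∃ x ∈ N, ∃ y ∈ Q,
        Conn ((F ∩ {z | h z ≠ w}) ∪ {x, y}) x y} ≤ ε := by
  intro ε hε
  obtain ⟨t₁, ht₁, ρ₁, hρ₁, H₁⟩ := multW_lo j hS (ε / 2) (by linarith)
  obtain ⟨t₂, ht₂, ρ₂, hρ₂, H₂⟩ := multW_hi j hS (ε / 2) (by linarith)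
  refine ⟨max t₁ t₂, le_max_of_le_left ht₁, max ρ₁ ρ₂, le_max_of_le_left hρ₁,
    fun w V F x₀ ρ R p η N Q hw hT hlow hwall h1 h2 h3 h4 h5 h6 h7 h8 h9 h10 h11 => ?_⟩
  have hρ0 : 0 ≤ ρ := by
    have := le_max_left ρ₁ ρ₂
    omega
  have hR1 : t₁ * ρ ≤ R := le_trans (mul_le_mul_of_nonneg_right (le_max_left _ _) hρ0) h3
  have hR2 : t₂ * ρ ≤ R := le_trans (mul_le_mul_of_nonneg_right (le_max_right _ _) hρ0) h3
  have k1 := H₁ w V F x₀ ρ R p η N Q hw hT (fun z hz => (hlow z hz).1)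
    (fun z hz x hx hxz hρz => (hwall z hz x hx hxz hρz).ge) h1 (le_trans (le_max_left _ _) h2) hR1
    h4 h5 h6 h7 h8 h9 h10 h11
  have k2 := H₂ w V F x₀ ρ R p η N Q hw hT (fun z hz => (hlow z hz).2)
    (fun z hz x hx hxz hρz => (hwall z hz x hx hxz hρz).le) h1 (le_trans (le_max_right _ _) h2) hR2
    h4 h5 h6 h7 h8 h9 h10 h11
  set E₁ : Set Hg :=
    {h | ∃ x ∈ N, ∃ y ∈ Q, Conn (V \ Wat V (Co V x₀ R p ∩ An x₀ ρ R) w h) x y} with hE₁
  set E₂ : Set Hg :=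
    {h | ∃ x ∈ N, ∃ y ∈ Q, Conn (V \ Wdn V (Co V x₀ R p ∩ An x₀ ρ R) w h) x y} with hE₂
  have k3 : Pr (Cfg F (exa F η)) (E₁ ∪ E₂) ≤ ε :=
    (Pr_union_le _ _ _).trans (by linarith)
  refine (Pr_mono (B := E₁ ∪ E₂) fun g hg hh => ?_).trans k3
  · obtain ⟨x, hx, y, hy, hxy⟩ := hh
    have hxo : x ∉ Co V x₀ R p ∩ An x₀ ρ R := fun h12 => by
      have h13 := (mem_An_iff.1 h12.2).1
      have h14 := mem_bx_iff.1 (h7 hx)
      omega
    have hyo : y ∉ Co V x₀ R p ∩ An x₀ ρ R := fun h12 => Set.disjoint_left.1 h10 hy h12.1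
    rcases one_sign hg hw hxy with h12 | h12
    · left
      refine ⟨x, hx, y, hy, h12.mono ?_⟩
      rintro z (hz | hz | hz)
      · refine ⟨hT.sub hz.1, fun h13 => ?_⟩
        have h14 : w ≤ g z := (Wat_subset h13).2
        have h15 : g z ≤ w - 2 := hz.2
        omega
      · subst hz
        exact ⟨h6 hx, fun h13 => hxo (Wat_subset h13).1⟩
      · rw [Set.mem_singleton_iff] at hz
        subst hz
        exact ⟨h9 hy, fun h13 => hyo (Wat_subset h13).1⟩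
    · right
      refine ⟨x, hx, y, hy, h12.mono ?_⟩
      rintro z (hz | hz | hz)
      · refine ⟨hT.sub hz.1, fun h13 => ?_⟩
        have h14 : g z ≤ w := (Wdn_subset h13).2
        have h15 : w + 2 ≤ g z := hz.2
        omega
      · subst hz
        exact ⟨h6 hx, fun h13 => hxo (Wdn_subset h13).1⟩
      · rw [Set.mem_singleton_iff] at hz
        subst hz
        exact ⟨h9 hy, fun h13 => hyo (Wdn_subset h13).1⟩

end Vale.Agent.P153.R2.LOC
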