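import Vale.Agent.P153.R2.LOC.BlkW

/-!
# P153-R2, block LOC (MULT): many scales, component version

`V` simply connected (the topological domain), `F ⊆ V` the random sites, exact data `η` off `F`.
Only the walls next to the component `W` of `p` in `V ∩ bx x₀ R` have heights at least one; all the
other data (frozen sites of `V`, walls of the other components) are arbitrary, `≥ -(2 j + 1)`.
-/

namespace Vale.Agent.P153.R2.LOC

open Set Relation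
open Vale.Agent.P153
open Vale.Agent.P153.Topo (Conn)
open Vale.Agent.P153.R2
open scoped Classical

variable {V F B A C : Set Pt} {I : Pt → Set ℤ} {x₀ p q x y : Pt} {r R Rw m : ℤ} {J : ℕ}
  {g h η : Hg}

/-- The law given the heights on `C`. -/
theorem fib_exa (hh : h ∈ Cfg F (exa F η)) (C : Set Pt) :
    Cfg F (exa F η) ∩ {g | ∀ x ∈ C, g x = h x} = Cfg (F \ C) (exa (F \ C) h) := by
  ext g
  constructor
  · rintro ⟨hg, hgC⟩
    refine ⟨hg.1, fun x => ?_, fun x hx y hxy => hg.2.2 x hx.1 y hxy⟩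
    by_cases hx : x ∈ F \ C
    · rw [exa_in hx]; exact Set.mem_univ _
    · rw [exa_out hx, Set.mem_singleton_iff]
      by_cases hxF : x ∈ F
      · have hxC : x ∈ C := by
          by_contra h1
          exact hx ⟨hxF, h1⟩
        exact hgC x hxC
      · rw [Cfg.eq_out hg hxF, Cfg.eq_out hh hxF]
  · intro hg
    have h1 : ∀ x, x ∉ F \ C → g x = h x := fun x hx => Cfg.eq_out hg hx
    refine ⟨⟨hg.1, fun x => ?_, fun x hx y hxy => ?_⟩, fun x hx => h1 x fun h2 => h2.2 hx⟩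
    · by_cases hx : x ∈ F
      · rw [exa_in hx]; exact Set.mem_univ _
      · rw [h1 x fun h2 => hx h2.1]; exact hh.2.1 x
    · by_cases hx' : x ∈ F \ C
      · exact hg.2.2 x hx' y hxy
      · by_cases hy : y ∈ F \ C
        · rw [abs_sub_comm]
          exact hg.2.2 y hy x (Topo.adj_symm hxy)
        · rw [h1 x hx', h1 y hy]
          exact hh.2.2 x hx y hxy

/-- The heights revealed are at least `-1`. -/
theorem rv_ge2 (hL : ∀ x ∈ B, ∀ y, Adj x y → |h x - h y| ≤ 2)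
    (hw : ∀ y ∈ B, ∀ z, z ∉ V → Adj y z → 1 ≤ h z) (hx : x ∈ Rv V B h) : -1 ≤ h x := by
  rcases hx with (h1 | ⟨h1, y, h2, h3⟩) | ⟨h1, z, h2, h3⟩
  · have : 1 ≤ h x := (Wat_subset h1).2
    omega
  · have h4 : 1 ≤ h y := (Wat_subset h2).2
    have h5 := hL y (Wat_subset h2).1 x h3
    rw [abs_le] at h5
    omega
  · have h4 := hw x h1 z h3 h2
    have h5 := hL x h1 z h2
    rw [abs_le] at h5
    omega

/-- Hypotheses for many annuli. -/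
structure MW (J : ℕ) (V F : Set Pt) (x₀ : Pt) (Rw : ℤ) (p : Pt) (N : ℤ) (r : ℕ → ℤ) (n : ℕ)
    (η : Hg) : Prop where
  sub : F ⊆ V
  ne : (Cfg F (exa F η)).Nonempty
  low : ∀ z ∈ ebd F, -2 * (J : ℤ) + 1 ≤ η z
  inn : ∀ k < n, ∀ x ∈ Co V x₀ Rw p, r k - J < ds x₀ x → ds x₀ x ≤ N * r k + J → x ∈ F
  wall : ∀ k < n, ∀ z, z ∉ V → ∀ x ∈ Co V x₀ Rw p, Adj x z → r k ≤ ds x₀ z →
    ds x₀ z ≤ N * r k + 1 → 1 ≤ η z

theorem mult_auxW (hJ : 1 ≤ J) {α : ℝ} {N r₀ : ℤ} (_hα : 0 < α) (hN : 1 ≤ N) (hr₀ : 1 ≤ r₀)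
    (hblk : ∀ (V F : Set Pt) (x₀ : Pt) (Rw r : ℤ) (p q : Pt) (η : Hg), V.Finite → CC V → x₀ ∉ V →
      r₀ ≤ r → NO V p → NO V q → p ∈ bx x₀ r → q ∉ bx x₀ Rw → N * r + J + 1 ≤ Rw →
      BW J V F x₀ Rw p r (N * r) η →
      α ≤ Pr (Cfg F (exa F η))
        (SepA (Nr V x₀ Rw p) (Nr V x₀ Rw p ∩ An x₀ r (N * r)) 1 p q))
    (hVf : V.Finite) (hV : CC V) (hx₀ : x₀ ∉ V) (hp : NO V p) (hq : NO V q)
    (hqR : q ∉ bx x₀ Rw) :
    ∀ (n : ℕ) (r : ℕ → ℤ) (F : Set Pt) (η : Hg), (∀ k, r₀ ≤ r k) →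
      (∀ k, N * r k + J ≤ r (k + 1)) → p ∈ bx x₀ (r 0) →
      (∀ k < n, N * r k + J + 1 ≤ Rw) → MW J V F x₀ Rw p N r n η →
      Pr (Cfg F (exa F η))
        {h | ∀ k < n, h ∉ SepA (Nr V x₀ Rw p) (Nr V x₀ Rw p ∩ An x₀ (r k) (N * r k)) 1 p q} ≤
        (1 - α) ^ n := by
  intro n
  induction n with
  | zero =>
    intro r F η _ _ _ _ _
    rw [pow_zero]
    exact Pr_le_one _ _
  | succ n ih =>
    intro r F η hr hrr hpr hRw hM
    have hJ' : (1 : ℤ) ≤ J := by exact_mod_cast hJ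
    have hFf : F.Finite := hVf.subset hM.sub
    have fI := Cfg_finite (Dat_exa hFf η)
    set U : Set Pt := Nr V x₀ Rw p with hU
    set B : Set Pt := U ∩ An x₀ (r 0) (N * r 0) with hB
    have hbk : BW J V F x₀ Rw p (r 0) (N * r 0) η :=
      ⟨hM.sub, hM.ne, hM.low, hM.inn 0 (Nat.succ_pos n), hM.wall 0 (Nat.succ_pos n)⟩
    have h1 := hblk V F x₀ Rw (r 0) p q η hVf hV hx₀ (hr 0) hp hq hpr hqR
      (hRw 0 (Nat.succ_pos n)) hbk
    have h2 := Pr_add_compl fI hM.ne (SepA U B 1 p q)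
    have h3 : Pr (Cfg F (exa F η)) (SepA U B 1 p q)ᶜ ≤ 1 - α := by linarith
    have hR0 := hRw 0 (Nat.succ_pos n)
    have hBC : ∀ x ∈ B, x ∈ Co V x₀ Rw p := by
      intro x hx
      have h5 := mem_An_iff.1 hx.2
      exact mem_Co_of (R := N * r 0) (by omega) hx.1 h5.2
    have hBF : B ⊆ F := by
      intro x hx
      have h5 := mem_An_iff.1 hx.2
      exact hM.inn 0 (Nat.succ_pos n) x (hBC x hx) (by omega) (by omega)
    have hBw : ∀ y ∈ B, ∀ z, z ∉ U → Adj y z → z ∉ V := by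
      intro y hy z hz hyz hzV
      have h5 := mem_An_iff.1 hy.2
      exact hz (Or.inl (Nr_step (R := N * r 0) (by omega) hy.1 h5.2 hyz hzV))
    have key := Pr_le_of_fiber fI (rev U B)
      {h | ∀ k < n, h ∉ SepA U (U ∩ An x₀ (r (k + 1)) (N * r (k + 1))) 1 p q}
      (SepA U B 1 p q)ᶜ (c := (1 - α) ^ n) ?_ ?_
    · have h0 : (0 : ℝ) ≤ (1 - α) ^ n := by
        apply pow_nonneg
        have := Pr_nonneg (Cfg F (exa F η)) (SepA U B 1 p q)ᶜ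
        linarith
      calc Pr (Cfg F (exa F η)) {h | ∀ k < n + 1, h ∉ SepA U (U ∩ An x₀ (r k) (N * r k)) 1 p q}
          ≤ Pr (Cfg F (exa F η)) ((SepA U B 1 p q)ᶜ ∩
              {h | ∀ k < n, h ∉ SepA U (U ∩ An x₀ (r (k + 1)) (N * r (k + 1))) 1 p q}) :=
            Pr_mono fun h _ hh => ⟨hh 0 (Nat.succ_pos n), fun k hk => hh (k + 1) (by omega)⟩
        _ ≤ (1 - α) ^ n * Pr (Cfg F (exa F η)) (SepA U B 1 p q)ᶜ := key
        _ ≤ (1 - α) ^ n * (1 - α) := mul_le_mul_of_nonneg_left h3 h0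
        _ = (1 - α) ^ (n + 1) := (pow_succ _ _).symm
    · intro a _ b _ hab
      show a ∉ SepA U B 1 p q ↔ b ∉ SepA U B 1 p q
      unfold SepA
      simp only [Set.mem_ofPred_eq]
      rw [rev_wat hab]
    · intro a ha _
      have e : {b | rev U B b = rev U B a} = {g | ∀ x ∈ Rv U B a, g x = a x} := by
        ext g
        simp only [Set.mem_ofPred_eq, rev_eq_iff]
      rw [e, fib_exa ha]
      have hRvB : Rv U B a ⊆ B := Rv_subset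
      have hage : ∀ x ∈ Rv U B a, -1 ≤ a x := fun x hx =>
        rv_ge2 (fun x hx y hxy => ha.2.2 x (hBF hx) y hxy) (fun y hy z hz hyz => by
          have hzV := hBw y hy z hz hyz
          have h5 := mem_An_iff.1 hy.2
          have h6 := ds_adj (x₀ := x₀) hyz
          rw [abs_le] at h6
          rw [Cfg.eq_out ha fun h => hzV (hM.sub h)]
          exact hM.wall 0 (Nat.succ_pos n) z hzV y (hBC y hy) hyz (by omega) (by omega)) hx
      have hmono : ∀ k, r 0 ≤ r (k + 1) ∧ N * r 0 + J ≤ r (k + 1) := by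
        intro k
        induction k with
        | zero =>
          have h5 := hrr 0
          have h6 := hr 0
          refine ⟨?_, h5⟩
          nlinarith
        | succ k ihk =>
          have h5 := hrr (k + 1)
          have h6 := hr (k + 1)
          constructor <;> nlinarith [ihk.1, ihk.2]
      refine ih (fun k => r (k + 1)) (F \ Rv U B a) a (fun k => hr (k + 1))
        (fun k => hrr (k + 1)) ?_ (fun k hk => hRw (k + 1) (by omega)) ?_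
      · rw [mem_bx_iff] at hpr ⊢
        exact hpr.trans (hmono 0).1
      · refine ⟨fun x hx => hM.sub hx.1, ⟨a, ?_⟩, ?_, ?_, ?_⟩
        · rw [← fib_exa ha]
          exact ⟨ha, fun x _ => rfl⟩
        · rintro z ⟨hz, y, hy, hyz⟩
          by_cases hzF : z ∈ F
          · have hzR : z ∈ Rv U B a := by
              by_contra h5
              exact hz ⟨hzF, h5⟩
            have := hage z hzR
            omega
          · rw [Cfg.eq_out ha hzF]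
            exact hM.low z ⟨hzF, y, hy.1, hyz⟩
        · intro k hk x hx h5 h6
          refine ⟨hM.inn (k + 1) (by omega) x hx h5 h6, fun h7 => ?_⟩
          have h8 := (mem_An_iff.1 (hRvB h7).2).2
          have h9 := (hmono k).2
          omega
        · intro k hk z hz x hx hxz h5 h6
          rw [Cfg.eq_out ha fun h => hz (hM.sub h)]
          exact hM.wall (k + 1) (by omega) z hz x hx hxz h5 h6

/-- The hypotheses on the data: `V` topological domain, `F` random sites, exact data `η ≥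
-(2 j + 1)`, walls next to the component `W` of `p` in `V ∩ bx x₀ R` at least one for
`ρ ≤ ds`. -/
structure ThkW (j : ℕ) (V F : Set Pt) (x₀ : Pt) (ρ R : ℤ) (p : Pt) (η : Hg) : Prop where
  fin : V.Finite
  cc : CC V
  sub : F ⊆ V
  ne : (Cfg F (exa F η)).Nonempty
  low : ∀ z ∈ ebd F, -(2 * (j : ℤ) + 1) ≤ η z
  inn : ∀ x ∈ Co V x₀ R p, ρ < ds x₀ x → x ∈ F
  wall : ∀ z, z ∉ V → ∀ x ∈ Co V x₀ R p, Adj x z → ρ ≤ ds x₀ z → 1 ≤ η z

/-- There is a path off `W` back to a door. -/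
theorem exists_door {W S : Set Pt} (hSV : S ⊆ V) (hp : p ∈ W) (h : Conn S p x) (hx : x ∉ W) :
    ∃ d ∈ Dr V W, Conn (V \ W) x d := by
  have key : ∀ u, Conn S p u → u ∉ W → ∃ d ∈ Dr V W, Conn (V \ W) u d := by
    intro u hu
    refine Conn.ind (S := S) (fun u => u ∉ W → ∃ d ∈ Dr V W, Conn (V \ W) u d)
      (fun h => absurd hp h) ?_ hu
    intro a b ha hab hb ih hbW
    have hbV : b ∈ V \ W := ⟨hSV hb, hbW⟩
    by_cases haW : a ∈ W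
    · exact ⟨b, ⟨hSV hb, hbW, a, haW, hab⟩, Conn.refl hbV⟩
    · obtain ⟨d, hd, had⟩ := ih haW
      have haV : a ∈ V \ W := ⟨hSV ha.right_mem, haW⟩
      exact ⟨d, hd, (Conn.of_adj hbV haV (Topo.adj_symm hab)).trans had⟩
  exact key x h hx

/-- MULT with a power bound; `p` next to the outside. -/
theorem multW_core (j : ℕ) (hS : S_land (j + 2)) : ∃ θ : ℝ, 0 ≤ θ ∧ θ < 1 ∧ ∃ L : ℤ, 2 ≤ L ∧
    ∃ ρ₀ : ℤ, 1 ≤ ρ₀ ∧
    ∀ (n : ℕ) (V F : Set Pt) (x₀ : Pt) (ρ R : ℤ) (p : Pt) (η : Hg) (N Q : Set Pt),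
      ThkW j V F x₀ ρ R p η → x₀ ∉ V → ρ₀ ≤ ρ → L ^ (n + 1) * ρ ≤ R → NO V p → p ∈ N →
      N ⊆ V → N ⊆ bx x₀ ρ → (∀ x ∈ N, Conn N p x) →
      Q ⊆ V → Disjoint Q (Co V x₀ R p) → (∀ x ∈ Q, ∀ y ∈ Q, Conn Q x y) →
      Pr (Cfg F (exa F η)) {h | ∃ x ∈ N, ∃ y ∈ Q,
        Conn (V \ Wat V (Co V x₀ R p ∩ An x₀ ρ R) 1 h) x y} ≤ θ ^ n := by
  obtain ⟨α, hα, M, hM, r₀, hr₀, hblk⟩ := blockW (J := j + 1) (by omega) hS
  set β : ℝ := min α 1 with hβ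
  have hβ0 : 0 < β := lt_min hα one_pos
  have hβ1 : β ≤ 1 := min_le_right _ _
  set J : ℤ := ((j + 1 : ℕ) : ℤ) with hJ
  have hJ1 : 1 ≤ J := by rw [hJ]; push_cast; omega
  set L : ℤ := 2 * M + 2 * J + 1 with hL
  have hL1 : 1 ≤ L := by omega
  have hLk : ∀ k, 1 ≤ L ^ k := fun k => one_le_pow₀ hL1
  refine ⟨1 - β, by linarith, by linarith, L, by omega, r₀ + J, by omega, ?_⟩
  intro n V F x₀ ρ R p η N Q hT hx₀ hρ hR hp hpN hNV hNb hNc hQV hQW hQc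
  set W : Set Pt := Co V x₀ R p with hW
  set B₀ : Set Pt := W ∩ An x₀ ρ R with hB₀
  have hρ1 : 1 ≤ ρ := by omega
  have hpb : p ∈ bx x₀ R := by
    have h1 := hNb hpN
    rw [mem_bx_iff] at h1 ⊢
    nlinarith [hLk (n + 1)]
  have hpW : p ∈ W := Conn.refl ⟨hp.1, hpb⟩
  have hWV : W ⊆ V := fun x hx => (Co_subset hx).1
  -- the target
  by_cases hex : ∃ y₀ ∈ Q, ∃ d₀ ∈ Dr V W, Conn (V \ W) y₀ d₀
  swap
  · refine le_trans (Pr_mono (B := ∅) fun h _ hh => ?_) ?_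
    · obtain ⟨x, hx, y, hy, hxy⟩ := hh
      have hs : V \ Wat V B₀ 1 h ⊆ V := fun z hz => hz.1
      have h1 : Conn V p y := ((hNc x hx).mono hNV).trans (hxy.mono hs)
      obtain ⟨d, hd, hyd⟩ := exists_door (W := W) (subset_rfl) hpW h1
        (fun h2 => Set.disjoint_left.1 hQW hy h2)
      exact absurd ⟨y, hy, d, hd, hyd⟩ hex
    · have h0 : (0 : ℝ) ≤ (1 - β) ^ n := pow_nonneg (by linarith) n
      unfold Pr
      simp [h0]
  obtain ⟨y₀, hy₀, d₀, hd₀, hyd₀⟩ := hex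
  have hd₀b : d₀ ∈ V \ bx x₀ R := Dr_Co hd₀
  obtain ⟨q, hqN, hqb, hdq⟩ := exists_no hT.fin hd₀b
  set r : ℕ → ℤ := fun k => L ^ k * (ρ + J) with hr
  have hrk : ∀ k, ρ + J ≤ r k := fun k => by
    show ρ + J ≤ L ^ k * (ρ + J)
    nlinarith [hLk k]
  have hrs : ∀ k, M * r k + J + 1 ≤ r (k + 1) := by
    intro k
    have h1 : r (k + 1) = L * r k := by
      show L ^ (k + 1) * (ρ + J) = L * (L ^ k * (ρ + J))
      ring
    have h2 := hrk k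
    rw [h1, hL]
    nlinarith
  have hrn : ∀ k ≤ n, r k ≤ R := by
    intro k hk
    have h1 : L ^ k ≤ L ^ n := pow_le_pow_right₀ hL1 hk
    have h2 : r k ≤ L ^ n * (ρ + J) := by
      show L ^ k * (ρ + J) ≤ L ^ n * (ρ + J)
      nlinarith
    have h3 : L ^ (n + 1) * ρ = L ^ n * (L * ρ) := by ring
    have h4 : ρ + J ≤ L * ρ := by
      rw [hL]; nlinarith
    nlinarith [hLk n]
  have hrR : ∀ k < n, M * r k + J + 1 ≤ R := fun k hk =>
    (hrs k).trans (hrn (k + 1) (by omega))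
  have hMW : MW (j + 1) V F x₀ R p M r n η := by
    refine ⟨hT.sub, hT.ne, fun z hz => ?_, fun k hk x hx h1 h2 => ?_,
      fun k hk z hz x hx hxz h1 h2 => ?_⟩
    · have := hT.low z hz
      push_cast
      omega
    · refine hT.inn x hx ?_
      have := hrk k
      omega
    · refine hT.wall z hz x hx hxz ?_
      have := hrk k
      omega
  have key := mult_auxW (J := j + 1) (by omega) (α := β) hβ0 hM hr₀
    (fun V F x₀ Rw r p q η h1 h2 h3 h4 h5 h6 h7 h8 h9 h10 =>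
      (min_le_left _ _).trans (hblk V F x₀ Rw r p q η h1 h2 h3 h4 h5 h6 h7 h8 h9 h10))
    hT.fin hT.cc hx₀ hp hqN hqb n r F η (fun k => by have := hrk k; omega)
    (fun k => by have := hrs k; omega)
    (by
      have h1 := hNb hpN
      have h2 := hrk 0
      rw [mem_bx_iff] at h1 ⊢
      omega)
    hrR hMW
  refine (Pr_mono fun h _ hh => ?_).trans key
  intro k hk hsep
  obtain ⟨x, hx, y, hy, hxy⟩ := hh
  set S : Set Pt := V \ Wat V B₀ 1 h with hS'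
  have hSV : S ⊆ V := fun z hz => hz.1
  have hDS : Dr V W ⊆ S := fun z hz => ⟨hz.1, fun h1 => hz.2.1 (Wat_subset h1).1.1⟩
  have hNS : N ⊆ S := fun z hz => ⟨hNV hz, fun h1 => by
    have h2 := (mem_An_iff.1 (Wat_subset h1).1.2).1
    have h3 := mem_bx_iff.1 (hNb hz)
    omega⟩
  have hpy : Conn S p y := ((hNc x hx).mono hNS).trans hxy
  have hyW : y ∉ W := fun h2 => Set.disjoint_left.1 hQW hy h2
  have hQs : Q ⊆ V \ W := fun z hz => ⟨hQV hz, fun h2 => Set.disjoint_left.1 hQW hz h2⟩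
  have hyd : Conn (V \ W) y d₀ := ((hQc y hy y₀ hy₀).mono hQs).trans hyd₀
  have h1 := (excur hT.cc hT.fin hWV Co_cn hSV hDS hpW hpy).2 hyW d₀ hd₀ hyd
  -- compare with the block
  apply hsep
  have hBk : ∀ z ∈ Nr V x₀ R p ∩ An x₀ (r k) (M * r k), z ∈ B₀ := by
    intro z hz
    have h2 := mem_An_iff.1 hz.2
    have h3 := hrR k hk
    have h4 := hrk k
    refine ⟨mem_Co_of (R := M * r k) (by omega) hz.1 h2.2, ?_⟩
    rw [mem_An_iff]
    omega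
  have hWk : Wat (Nr V x₀ R p) (Nr V x₀ R p ∩ An x₀ (r k) (M * r k)) 1 h ⊆ Wat V B₀ 1 h := by
    rintro z ⟨a, b, h2, h3, h4⟩
    have hs : (Nr V x₀ R p ∩ An x₀ (r k) (M * r k)) ∩ up h 1 ⊆ B₀ ∩ up h 1 := fun u hu =>
      ⟨hBk u hu.1, hu.2⟩
    refine ⟨a, b, h2.mono hs, h3, fun hbV => ?_⟩
    have h5 := h2.right_mem.1
    have h6 := mem_An_iff.1 h5.2
    have h7 := hrR k hk
    exact h4 (Or.inl (Nr_step (R := M * r k) (by omega) h5.1 h6.2 h3 hbV))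
  have hs1 : S ∩ (W ∪ Dr V W) ⊆
      Nr V x₀ R p \ Wat (Nr V x₀ R p) (Nr V x₀ R p ∩ An x₀ (r k) (M * r k)) 1 h := by
    rintro z ⟨⟨h2, h3⟩, h4⟩
    refine ⟨?_, fun h5 => h3 (hWk h5)⟩
    rcases h4 with h4 | h4
    · exact Or.inl h4
    · exact Or.inr (Dr_Co h4)
  have hs2 : V \ bx x₀ R ⊆
      Nr V x₀ R p \ Wat (Nr V x₀ R p) (Nr V x₀ R p ∩ An x₀ (r k) (M * r k)) 1 h := by
    rintro z ⟨h2, h3⟩
    refine ⟨Or.inr ⟨h2, h3⟩, fun h5 => h3 ?_⟩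
    have h6 := hWk h5
    exact (Co_subset (Wat_subset h6).1.1).2
  exact (h1.mono hs1).trans (hdq.mono hs2)

theorem Co_eq {y : Pt} (hy : y ∈ Co V x₀ R p) : Co V x₀ R y = Co V x₀ R p := by
  ext z
  constructor
  · intro hz
    exact Conn.trans hy hz
  · intro hz
    exact Conn.trans (Conn.symm hy) hz

theorem Co_mono {R' : ℤ} (h : R ≤ R') : Co V x₀ R p ⊆ Co V x₀ R' p := by
  intro z hz
  have hs : V ∩ bx x₀ R ⊆ V ∩ bx x₀ R' := fun a ha => ⟨ha.1, by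
    have := ha.2
    rw [mem_bx_iff] at this ⊢
    omega⟩
  exact hz.mono hs

/-- **MULT, component version, power bound.** -/
theorem multW_exp (j : ℕ) (hS : S_land (j + 2)) : ∃ θ : ℝ, 0 ≤ θ ∧ θ < 1 ∧ ∃ L : ℤ, 2 ≤ L ∧
    ∃ ρ₀ : ℤ, 1 ≤ ρ₀ ∧
    ∀ (n : ℕ) (V F : Set Pt) (x₀ : Pt) (ρ R : ℤ) (p : Pt) (η : Hg) (N Q : Set Pt),
      ThkW j V F x₀ ρ R p η → x₀ ∉ V → ρ₀ ≤ ρ → L ^ (n + 1) * ρ ≤ R → p ∈ N →
      N ⊆ V → N ⊆ bx x₀ ρ → (∀ x ∈ N, Conn N p x) →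
      Q ⊆ V → Disjoint Q (Co V x₀ R p) → (∀ x ∈ Q, ∀ y ∈ Q, Conn Q x y) →
      Pr (Cfg F (exa F η)) {h | ∃ x ∈ N, ∃ y ∈ Q,
        Conn (V \ Wat V (Co V x₀ R p ∩ An x₀ ρ R) 1 h) x y} ≤ θ ^ n := by
  obtain ⟨θ, h0, h1, L, hL, ρ₀, hρ₀, H⟩ := multW_core j hS
  refine ⟨θ, h0, h1, L, hL, ρ₀, hρ₀, fun n V F x₀ ρ R p η N Q hT hx₀ hρ hR hpN hNV hNb hNc hQV
    hQW hQc => ?_⟩
  have hLn : 1 ≤ L ^ (n + 1) := one_le_pow₀ (by omega)
  have hρR : ρ ≤ R := by nlinarith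
  have hb : x₀ ∈ bx x₀ ρ := by
    rw [mem_bx_iff]
    unfold ds
    simp only [sub_self, abs_zero, max_self]
    omega
  obtain ⟨u, o, h2, h3, h4, h5⟩ := PLAN.first_exit (V := V) (hNV hpN) hx₀
    (PLAN.cn_bx x₀ ρ p (hNb hpN) x₀ hb)
  have hs : bx x₀ ρ ∩ V ⊆ V ∩ bx x₀ ρ := fun a ha => ⟨ha.2, ha.1⟩
  have hu : u ∈ Co V x₀ ρ p := h2.mono hs
  have hCo : Co V x₀ R u = Co V x₀ R p := Co_eq (Co_mono hρR hu)
  have hT' : ThkW j V F x₀ ρ R u η :=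
    ⟨hT.fin, hT.cc, hT.sub, hT.ne, hT.low, by rw [hCo]; exact hT.inn, by rw [hCo]; exact hT.wall⟩
  have key := H n V F x₀ ρ R u η (Co V x₀ ρ p) Q hT' hx₀ hρ hR ⟨(Co_subset hu).1, o, h3, h5⟩ hu
    (fun z hz => (Co_subset hz).1) (fun z hz => (Co_subset hz).2) (Co_cn u hu) hQV
    (by rw [hCo]; exact hQW) hQc
  rw [hCo] at key
  refine (Pr_mono fun h _ hh => ?_).trans key
  obtain ⟨x, hx, y, hy, hxy⟩ := hh
  have hN' : N ⊆ V ∩ bx x₀ ρ := fun z hz => ⟨hNV hz, hNb hz⟩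
  exact ⟨x, (hNc x hx).mono hN', y, hy, hxy⟩

/-- **MULT, component version.** The attached `{h ≥ 1}`-sites of `W ∩` annulus separate a connected
set `N` inside `ds ≤ ρ` from a connected set `Q` off `W`, except with small probability, if `R / ρ`
is large. -/
theorem multW (j : ℕ) (hS : S_land (j + 2)) : ∀ ε : ℝ, 0 < ε → ∃ t : ℤ, 1 ≤ t ∧ ∃ ρ₀ : ℤ, 1 ≤ ρ₀ ∧
    ∀ (V F : Set Pt) (x₀ : Pt) (ρ R : ℤ) (p : Pt) (η : Hg) (N Q : Set Pt),
      ThkW j V F x₀ ρ R p η → x₀ ∉ V → ρ₀ ≤ ρ → t * ρ ≤ R → NO V p → p ∈ N →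
      N ⊆ V → N ⊆ bx x₀ ρ → (∀ x ∈ N, Conn N p x) →
      Q ⊆ V → Disjoint Q (Co V x₀ R p) → (∀ x ∈ Q, ∀ y ∈ Q, Conn Q x y) →
      Pr (Cfg F (exa F η)) {h | ∃ x ∈ N, ∃ y ∈ Q,
        Conn (V \ Wat V (Co V x₀ R p ∩ An x₀ ρ R) 1 h) x y} ≤ ε := by
  intro ε hε
  obtain ⟨θ, h0, h1, L, hL, ρ₀, hρ₀, H⟩ := multW_exp j hS
  obtain ⟨n, hn⟩ := exists_pow_lt_of_lt_one hε h1
  refine ⟨L ^ (n + 1), one_le_pow₀ (by omega), ρ₀, hρ₀, fun V F x₀ ρ R p η N Q h2 h3 h4 h5 _ h7 h8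
    h9 h10 h11 h12 h13 => ?_⟩
  exact (H n V F x₀ ρ R p η N Q h2 h3 h4 h5 h7 h8 h9 h10 h11 h12 h13).trans hn.le

/-- The form with `{h ≤ -1}`. -/
theorem multW' (j : ℕ) (hS : S_land (j + 2)) : ∀ ε : ℝ, 0 < ε → ∃ t : ℤ, 1 ≤ t ∧ ∃ ρ₀ : ℤ, 1 ≤ ρ₀ ∧
    ∀ (V F : Set Pt) (x₀ : Pt) (ρ R : ℤ) (p : Pt) (η : Hg) (N Q : Set Pt),
      ThkW j V F x₀ ρ R p η → x₀ ∉ V → ρ₀ ≤ ρ → t * ρ ≤ R → NO V p → p ∈ N →
      N ⊆ V → N ⊆ bx x₀ ρ → (∀ x ∈ N, Conn N p x) →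
      Q ⊆ V → Disjoint Q (Co V x₀ R p) → (∀ x ∈ Q, ∀ y ∈ Q, Conn Q x y) →
      Pr (Cfg F (exa F η)) {h | ∃ x ∈ N, ∃ y ∈ Q, Conn (V ∩ dn h (-1)) x y} ≤ ε := by
  intro ε hε
  obtain ⟨t, ht, ρ₀, hρ₀, h⟩ := multW j hS ε hε
  refine ⟨t, ht, ρ₀, hρ₀, fun V F x₀ ρ R p η N Q h1 h2 h3 h4 h5 h6 h7 h8 h9 h10 h11 h12 => ?_⟩
  refine (Pr_mono fun g _ hg => ?_).trans (h V F x₀ ρ R p η N Q h1 h2 h3 h4 h5 h6 h7 h8 h9 h10
    h11 h12)
  obtain ⟨x, hx, y, hy, hxy⟩ := hg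
  refine ⟨x, hx, y, hy, hxy.mono ?_⟩
  rintro z ⟨hz1, hz2⟩
  refine ⟨hz1, fun h13 => ?_⟩
  have h14 : 1 ≤ g z := (Wat_subset h13).2
  have h15 : g z ≤ -1 := hz2
  omega

end Vale.Agent.P153.R2.LOC
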