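import Vale.Agent.P153.R2.Base.Basic
import Vale.Agent.P153.R2.PLAN.Cob

/-!
# P153-R2, block LOC: attached separating sets

`Wat V B a h`: the sites of `B` with height at least `a` which are joined, inside `B ∩ {h ≥ a}`, to
a site adjacent to the outside of `V`. `SepA V B a p q`: these sites separate `p` from `q` in `V`.
Duality: if `{h ≤ a - 2}` does not join `p` to `q` in `V` then `SepA` holds, provided that `p` and
`q` are next to the outside.
-/

namespace Vale.Agent.P153.R2.LOC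

open Set Relation
open Vale.Agent.P153
open Vale.Agent.P153.Topo (Conn)
open Vale.Agent.P153.R2

/-- The attached part of `B ∩ {h ≥ a}`. -/
def Wat (V B : Set Pt) (a : ℤ) (h : Hg) : Set Pt :=
  {x | ∃ y z, Conn (B ∩ up h a) x y ∧ Adj y z ∧ z ∉ V}

/-- The attached part of `B ∩ {h ≥ a}` separates `p` from `q` in `V`. -/
def SepA (V B : Set Pt) (a : ℤ) (p q : Pt) : Set Hg := {h | ¬ Conn (V \ Wat V B a h) p q}

/-- The annulus. -/
def An (x : Pt) (r R : ℤ) : Set Pt := bx x R \ bx x r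

/-- Next to the outside of `V`. -/
def NO (V : Set Pt) (x : Pt) : Prop := x ∈ V ∧ ∃ y, Adj x y ∧ y ∉ V

variable {V B B' : Set Pt} {a : ℤ} {p q x y : Pt} {h g : Hg}

theorem Wat_subset : Wat V B a h ⊆ B ∩ up h a := by
  rintro x ⟨y, z, h1, -, -⟩
  exact h1.left_mem

theorem Wat_mono (hB : B ⊆ B') (hhg : h ≤ g) : Wat V B a h ⊆ Wat V B' a g := by
  rintro x ⟨y, z, h1, h2, h3⟩
  have hs : B ∩ up h a ⊆ B' ∩ up g a := fun w hw => ⟨hB hw.1, le_trans hw.2 (hhg w)⟩
  exact ⟨y, z, h1.mono hs, h2, h3⟩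

theorem SepA_mono (hB : B ⊆ B') (hhg : h ≤ g) (hh : h ∈ SepA V B a p q) : g ∈ SepA V B' a p q := by
  intro hc
  have hs : V \ Wat V B' a g ⊆ V \ Wat V B a h := fun w hw =>
    ⟨hw.1, fun h1 => hw.2 (Wat_mono hB hhg h1)⟩
  exact hh (hc.mono hs)

theorem SepA_upper : IsUpperSet (SepA V B a p q) := fun _ _ hgh hg => SepA_mono subset_rfl hgh hg

theorem SepA_symm (hh : h ∈ SepA V B a p q) : h ∈ SepA V B a q p := fun hc => hh hc.symm

/-- The attached part depends on the heights on `B` only. -/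
theorem Wat_congr (hhg : ∀ x ∈ B, h x = g x) : Wat V B a h = Wat V B a g := by
  have e : B ∩ up h a = B ∩ up g a := by
    ext x
    constructor
    · rintro ⟨h1, h2⟩
      exact ⟨h1, by have h3 : a ≤ h x := h2; show a ≤ g x; rw [← hhg x h1]; exact h3⟩
    · rintro ⟨h1, h2⟩
      exact ⟨h1, by have h3 : a ≤ g x := h2; show a ≤ h x; rw [hhg x h1]; exact h3⟩
  unfold Wat
  rw [e]

theorem SepA_congr (hhg : ∀ x ∈ B, h x = g x) : h ∈ SepA V B a p q ↔ g ∈ SepA V B a p q := by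
  unfold SepA
  simp only [mem_ofPred_eq]
  rw [Wat_congr hhg]

theorem Wat_shift (c : ℤ) : Wat V B (a + c) (fun x => h x + c) = Wat V B a h := by
  have e : B ∩ up (fun x => h x + c) (a + c) = B ∩ up h a := by
    ext x
    simp only [up, mem_inter_iff, mem_ofPred_eq]
    constructor
    · rintro ⟨h1, h2⟩; exact ⟨h1, by omega⟩
    · rintro ⟨h1, h2⟩; exact ⟨h1, by omega⟩
  unfold Wat
  rw [e]

/-- Attached sites separate: a connected set which avoids them and contains `p` does not meet a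
connected set which contains `q`. -/
theorem SepA_sets (hh : h ∈ SepA V B a p q) {N Q S : Set Pt} (hN : ∀ x ∈ N, Conn N p x)
    (hQ : ∀ x ∈ Q, Conn Q q x) (hNV : N ⊆ V \ B) (hQV : Q ⊆ V \ B) (hS : S ⊆ V)
    (hSh : ∀ x ∈ S, x ∈ B → h x < a) {x y : Pt} (hx : x ∈ N) (hy : y ∈ Q) : ¬ Conn S x y := by
  intro hc
  have hW : ∀ {T : Set Pt}, T ⊆ V \ B → T ⊆ V \ Wat V B a h := fun hT z hz =>
    ⟨(hT hz).1, fun h1 => (hT hz).2 (Wat_subset h1).1⟩
  have hSW : S ⊆ V \ Wat V B a h := fun z hz => ⟨hS hz, fun h1 => by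
    have h2 := Wat_subset h1
    have h3 := hSh z hz h2.1
    have h4 : a ≤ h z := h2.2
    omega⟩
  exact hh (((hN x hx).mono (hW hNV)).trans ((hc.mono hSW).trans
    (((hQ y hy).mono (hW hQV)).symm)))

section Dual

open PLAN

/-- Duality, deterministic form: `G` connected, next to the outside, `q` in `V \ G` next to the
outside. The sites next to `G` in the component of `q` in `V \ G` are joined, through such sites, to
a site next to the outside. -/
theorem dual_att (hV : CC V) {G : Set Pt} (hGV : G ⊆ V) (hG : ∀ x ∈ G, ∀ y ∈ G, Conn G x y)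
    {g₀ : Pt} (hg₀ : g₀ ∈ G) (hg₀o : ∃ z, Adj g₀ z ∧ z ∉ V) (hq : q ∈ V) (hqG : q ∉ G)
    (hqo : ∃ z, Adj q z ∧ z ∉ V) {y : Pt} (hy : Conn (V \ G) q y) {k : Pt} (hk : k ∈ G)
    (hky : Adj k y) :
    ∃ y' z, Conn {x | Conn (V \ G) q x ∧ ∃ g ∈ G, Adj g x} y y' ∧ Adj y' z ∧ z ∉ V := by
  set M : Set Pt := {x | Conn (V \ G) q x} with hM
  set Y : Set Pt := {x | Conn (V \ G) q x ∧ ∃ g ∈ G, Adj g x} with hY
  set K : Set Pt := Vᶜ ∪ G with hK
  obtain ⟨zg, hzg, hzgV⟩ := hg₀o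
  obtain ⟨zq, hzq, hzqV⟩ := hqo
  have hMV : M ⊆ V \ G := fun x hx => hx.right_mem
  have hKM : Disjoint K M := by
    rw [Set.disjoint_left]
    rintro x (h1 | h1) h2
    · exact h1 (hMV h2).1
    · exact (hMV h2).2 h1
  have hOK : Vᶜ ⊆ K := subset_union_left
  have hGK : G ⊆ K := subset_union_right
  have hKc : ∀ x ∈ K, ∀ y ∈ K, Conn K x y := by
    have hto : ∀ x ∈ K, Conn K x zg := by
      rintro x (h1 | h1)
      · exact (hV x zg h1 hzgV).mono hOK
      · exact ((hG x h1 g₀ hg₀).mono hGK).tail hzg (hOK hzgV)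
    exact fun x hx y hy => (hto x hx).trans (hto y hy).symm
  have hMc : ∀ x ∈ M, ∀ y ∈ M, Conn M x y := by
    have hto : ∀ x ∈ M, Conn M q x := by
      intro x hx
      refine Conn.ind (S := V \ G) (fun x => Conn M q x) (Conn.refl (Conn.refl ⟨hq, hqG⟩)) ?_ hx
      intro u v hu huv hv ih
      exact ih.tail huv (hu.tail huv hv)
    exact fun x hx y hy => (hto x hx).symm.trans (hto y hy)
  have hcl : ∀ x ∈ M, ∀ y, Adj x y → y ∉ K → y ∈ M := by
    intro x hx y hxy hyK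
    have hyV : y ∈ V := by
      by_contra h1
      exact hyK (Or.inl h1)
    have hyG : y ∉ G := fun h1 => hyK (Or.inr h1)
    exact Conn.tail hx hxy ⟨hyV, hyG⟩
  have hqM : q ∈ M := Conn.refl ⟨hq, hqG⟩
  have hint := interface_connected hKM hKc hMc hcl (hGK hk) hy hky (hOK hzqV) hqM
    (Topo.adj_symm hzq)
  -- follow the interface
  have key : ∀ e : Pt × Pt, ReflTransGen (Turn K M) (k, y) e →
      (e.1 ∈ G ∧ Conn Y y e.2) ∨ ∃ y' z, Conn Y y y' ∧ Adj y' z ∧ z ∉ V := by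
    intro e he
    induction he with
    | refl => exact Or.inl ⟨hk, Conn.refl ⟨hy, k, hk, hky⟩⟩
    | @tail b c _ hbc ih =>
      rcases ih with ⟨hb1, hb2⟩ | ih
      · have hc := hbc.1
        rcases hbc.2 with ⟨h1, h2⟩ | ⟨h1, h2⟩
        · left
          refine ⟨h1 ▸ hb1, hb2.tail h2 ⟨hc.2.1, c.1, h1 ▸ hb1, hc.2.2⟩⟩
        · rcases hc.1 with h3 | h3
          · right
            refine ⟨b.2, c.1, hb2, ?_, h3⟩
            rw [h1]
            exact Topo.adj_symm hc.2.2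
          · left
            exact ⟨h3, h1 ▸ hb2⟩
      · exact Or.inr ih
  rcases key _ hint with ⟨h1, -⟩ | h1
  · exact absurd (hGV h1) hzqV
  · exact h1

/-- **Duality.** -/
theorem mem_SepA (hV : CC V) (ha : Odd a) (ho : ∀ x, Odd (h x)) (hp : NO V p) (hq : NO V q)
    (hpa : h p < a) (hB : ∀ x ∈ V, x ∉ B → h x < a)
    (hpq : ¬ Conn (V ∩ dn h (a - 2)) p q) : h ∈ SepA V B a p q := by
  set G : Set Pt := {x | Conn (V ∩ dn h (a - 2)) p x} with hG
  have hlt : ∀ x, h x < a → h x ≤ a - 2 := by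
    intro x hx
    obtain ⟨k, hk⟩ := ha
    obtain ⟨l, hl⟩ := ho x
    omega
  have hpG : p ∈ G := Conn.refl ⟨hp.1, hlt p hpa⟩
  have hGV : G ⊆ V := fun x hx => hx.right_mem.1
  have hGc : ∀ x ∈ G, ∀ y ∈ G, Conn G x y := by
    have hto : ∀ x ∈ G, Conn G p x := by
      intro x hx
      refine Conn.ind (S := V ∩ dn h (a - 2)) (fun x => Conn G p x) (Conn.refl hpG) ?_ hx
      intro u v hu huv hv ih
      exact ih.tail huv (hu.tail huv hv)
    exact fun x hx y hy => (hto x hx).symm.trans (hto y hy)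
  have hqG : q ∉ G := fun h1 => hpq h1
  have hY : ∀ x ∈ {x | Conn (V \ G) q x ∧ ∃ g ∈ G, Adj g x}, x ∈ B ∩ up h a := by
    rintro x ⟨h1, g, hg, hgx⟩
    have hxV : x ∈ V := h1.right_mem.1
    have hxG : x ∉ G := h1.right_mem.2
    have hxa : a ≤ h x := by
      by_contra h2
      push Not at h2
      exact hxG (Conn.tail hg hgx ⟨hxV, hlt x h2⟩)
    refine ⟨?_, hxa⟩
    by_contra h2
    have := hB x hxV h2
    omega
  intro hc
  have key : ∀ x, Conn (V \ Wat V B a h) q x → Conn (V \ G) q x := by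
    intro x hx
    refine Conn.ind (S := V \ Wat V B a h) (fun x => Conn (V \ G) q x)
      (Conn.refl ⟨hq.1, hqG⟩) ?_ hx
    intro u v hu huv hv ih
    by_cases hvG : v ∈ G
    · exfalso
      obtain ⟨y', z, h1, h2, h3⟩ := dual_att hV hGV hGc hpG hp.2 hq.1 hqG hq.2 ih hvG
        (Topo.adj_symm huv)
      exact hu.right_mem.2 ⟨y', z, h1.mono hY, h2, h3⟩
    · exact ih.tail huv ⟨hv.1, hvG⟩
  exact (key p hc.symm).right_mem.2 hpG

end Dual

end Vale.Agent.P153.R2.LOC
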