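import Vale.Agent.P153.R2.LOC.Pot
import Vale.Agent.P153.R2.LOC.Dual
import Vale.Agent.P153.R2.PLAN.Box
import Vale.Agent.P153.R2.PLAN.Poly

/-!
# P153-R2, block LOC: doors

`V` simply connected, `W ⊆ V` connected, `E` a component of `V \ W`: the sites of `E` next to `W`
form a connected set (`door`). Paths of `V` which start in `W` can be pushed into `W` and its doors
(`excur`). The component of `p` in a box together with the sites off the box is simply connected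
(`CC_near`), and so is this component with one component of the rest (`CC_exit`).
-/

namespace Vale.Agent.P153.R2.LOC

open Set Relation
open Vale.Agent.P153
open Vale.Agent.P153.Topo (Conn)
open Vale.Agent.P153.R2
open scoped Classical

variable {V W S : Set Pt} {x₀ p q x y : Pt} {R : ℤ}

/-- The sites of `V \ W` next to `W`. -/
def Dr (V W : Set Pt) : Set Pt := {x | x ∈ V ∧ x ∉ W ∧ ∃ w ∈ W, Adj w x}

theorem Dr_subset : Dr V W ⊆ V := fun _ h => h.1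

/-- **Doors are connected.** -/
theorem door (hV : CC V) (hf : V.Finite) (hWV : W ⊆ V) (hW : ∀ x ∈ W, ∀ y ∈ W, Conn W x y)
    {e₁ e₂ : Pt} (h1 : e₁ ∈ Dr V W) (h2 : e₂ ∈ Dr V W) (h12 : Conn (V \ W) e₁ e₂) :
    Conn {x | x ∈ Dr V W ∧ Conn (V \ W) e₁ x} e₁ e₂ := by
  set D : Set Pt := {x | x ∈ Dr V W ∧ Conn (V \ W) e₁ x} with hD
  have h1D : e₁ ∈ D := ⟨h1, Conn.refl ⟨h1.1, h1.2.1⟩⟩
  by_contra hno
  set c : Pt → Pt → ZMod 2 := fun x y =>
    if (x ∈ W ∧ Conn D e₁ y) ∨ (y ∈ W ∧ Conn D e₁ x) then 1 else 0 with hc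
  have hcs : ∀ x y, c x y = c y x := by
    intro x y
    simp only [hc]
    congr 1
    exact propext or_comm
  have hnW : ∀ x, Conn D e₁ x → x ∉ W := fun x hx => hx.right_mem.1.2.1
  have hc1 : ∀ x y, x ∈ W → Conn D e₁ y → c x y = 1 := by
    intro x y hx hy
    simp only [hc]
    rw [if_pos (Or.inl ⟨hx, hy⟩)]
  have hcW : ∀ x y, x ∈ W → y ∈ W → c x y = 0 := by
    intro x y hx hy
    simp only [hc]
    rw [if_neg]
    rintro (⟨-, h3⟩ | ⟨-, h3⟩)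
    · exact hnW y h3 hy
    · exact hnW x h3 hx
  have hcE : ∀ x y, x ∉ W → y ∉ W → c x y = 0 := by
    intro x y hx hy
    simp only [hc]
    rw [if_neg]
    rintro (⟨h3, -⟩ | ⟨h3, -⟩)
    · exact hx h3
    · exact hy h3
  have hc0 : ∀ x y, x ∈ W → ¬ Conn D e₁ y → c x y = 0 := by
    intro x y hx hy
    simp only [hc]
    rw [if_neg]
    rintro (⟨-, h3⟩ | ⟨-, h3⟩)
    · exact hy h3
    · exact hnW x h3 hx
  -- two neighbours off `W`, both next to `w ∈ W`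
  have step : ∀ w y z, w ∈ W → y ∈ V → z ∈ V → y ∉ W → z ∉ W → Adj w y → Adj w z → Adj y z →
      Conn D e₁ y → Conn D e₁ z := by
    intro w y z hw hy hz hyW hzW hwy hwz hyz hcon
    refine hcon.tail hyz ⟨⟨hz, hzW, w, hw, hwz⟩, ?_⟩
    exact hcon.right_mem.2.tail hyz ⟨hz, hzW⟩
  have tri : ∀ w y z, w ∈ W → y ∈ V → z ∈ V → y ∉ W → z ∉ W → Adj w y → Adj w z → Adj y z →
      c w y + c w z + c y z = 0 := by
    intro w y z hw hy hz hyW hzW hwy hwz hyz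
    rw [hcE y z hyW hzW]
    by_cases h3 : Conn D e₁ y
    · rw [hc1 w y hw h3, hc1 w z hw (step w y z hw hy hz hyW hzW hwy hwz hyz h3)]
      rfl
    · have h4 : ¬ Conn D e₁ z := fun h4 =>
        h3 (step w z y hw hz hy hzW hyW hwz hwy (Topo.adj_symm hyz) h4)
      rw [hc0 w y hw h3, hc0 w z hw h4]
      rfl
  have tri2 : ∀ w w' y, w ∈ W → w' ∈ W → y ∉ W → c w w' + c w y + c w' y = 0 := by
    intro w w' y hw hw' hyW
    rw [hcW w w' hw hw']
    by_cases h3 : Conn D e₁ y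
    · rw [hc1 w y hw h3, hc1 w' y hw' h3]; rfl
    · rw [hc0 w y hw h3, hc0 w' y hw' h3]; rfl
  have tri' : ∀ x y z, x ∈ V → y ∈ V → z ∈ V → Adj x y → Adj y z → Adj x z →
      c x y + c x z + c y z = 0 := by
    intro x y z hx hy hz hxy hyz hxz
    have h0 : (2 : ZMod 2) = 0 := rfl
    by_cases a1 : x ∈ W <;> by_cases a2 : y ∈ W <;> by_cases a3 : z ∈ W
    · rw [hcW x y a1 a2, hcW x z a1 a3, hcW y z a2 a3]; rfl
    · exact tri2 x y z a1 a2 a3
    · have := tri2 x z y a1 a3 a2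
      rw [hcs z y] at this
      linear_combination this
    · exact tri x y z a1 hy hz a2 a3 hxy hxz hyz
    · have := tri2 y z x a2 a3 a1
      rw [hcs y x, hcs z x] at this
      linear_combination this
    · have := tri y x z a2 hx hz a1 a3 (Topo.adj_symm hxy) hyz hxz
      rw [hcs y x] at this
      linear_combination this
    · have := tri z x y a3 hx hy a1 a2 (Topo.adj_symm hxz) (Topo.adj_symm hyz) hxy
      rw [hcs z x, hcs z y] at this
      linear_combination this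
    · rw [hcE x y a1 a2, hcE x z a1 a3, hcE y z a2 a3]; rfl
  obtain ⟨U, hU⟩ := exists_pot hV hf c hcs (by
    rintro ⟨⟨i, j⟩, b⟩ hr
    cases b
    · rw [PLAN.cor_false] at hr
      simp only [PLAN.tsum]
      exact tri' (i, j) (i + 1, j) (i, j + 1) (hr _ (by simp)) (hr _ (by simp)) (hr _ (by simp))
        (by rw [Topo.adj_iff]; dsimp only; omega) (by rw [Topo.adj_iff]; dsimp only; omega)
        (by rw [Topo.adj_iff]; dsimp only; omega)
    · rw [PLAN.cor_true] at hr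
      simp only [PLAN.tsum]
      exact tri' (i + 1, j) (i, j + 1) (i + 1, j + 1) (hr _ (by simp)) (hr _ (by simp))
        (hr _ (by simp)) (by rw [Topo.adj_iff]; dsimp only; omega)
        (by rw [Topo.adj_iff]; dsimp only; omega) (by rw [Topo.adj_iff]; dsimp only; omega))
  have h0 : (2 : ZMod 2) = 0 := rfl
  have cW : ∀ x y, Conn W x y → U x = U y := by
    intro x y hxy
    refine Conn.ind (S := W) (fun y => U x = U y) rfl ?_ hxy
    intro u v hu huv hv ih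
    have h3 := hU u (hWV hu.right_mem) v (hWV hv) huv
    rw [hcW u v hu.right_mem hv] at h3
    rw [ih]
    linear_combination - h3 - U v * h0
  have cE : ∀ x y, Conn (V \ W) x y → U x = U y := by
    intro x y hxy
    refine Conn.ind (S := V \ W) (fun y => U x = U y) rfl ?_ hxy
    intro u v hu huv hv ih
    have h3 := hU u hu.right_mem.1 v hv.1 huv
    rw [hcE u v hu.right_mem.2 hv.2] at h3
    rw [ih]
    linear_combination - h3 - U v * h0
  obtain ⟨h1V, h1W, w₁, hw₁, hwe₁⟩ := h1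
  obtain ⟨h2V, h2W, w₂, hw₂, hwe₂⟩ := h2
  have e1 := hU w₁ (hWV hw₁) e₁ h1V hwe₁
  have e2 := hU w₂ (hWV hw₂) e₂ h2V hwe₂
  rw [hc1 w₁ e₁ hw₁ (Conn.refl h1D), cW w₁ w₂ (hW w₁ hw₁ w₂ hw₂), cE e₁ e₂ h12, ← e2,
    hc0 w₂ e₂ hw₂ hno] at e1
  exact absurd e1 (by decide)

/-- **Excursions** off `W` can be replaced by walks along the doors. -/
theorem excur (hV : CC V) (hf : V.Finite) (hWV : W ⊆ V) (hW : ∀ x ∈ W, ∀ y ∈ W, Conn W x y)
    (hSV : S ⊆ V) (hS : Dr V W ⊆ S) (hp : p ∈ W) (h : Conn S p x) :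
    (x ∈ W → Conn (S ∩ (W ∪ Dr V W)) p x) ∧
      (x ∉ W → ∀ d ∈ Dr V W, Conn (V \ W) x d → Conn (S ∩ (W ∪ Dr V W)) p d) := by
  have hcon : ∀ {y d : Pt}, y ∈ Dr V W → d ∈ Dr V W → Conn (V \ W) y d →
      Conn (S ∩ (W ∪ Dr V W)) y d := by
    intro y d hy hd hyd
    have hs : {x | x ∈ Dr V W ∧ Conn (V \ W) y x} ⊆ S ∩ (W ∪ Dr V W) := fun z hz =>
      ⟨hS hz.1, Or.inr hz.1⟩
    exact (door hV hf hWV hW hy hd hyd).mono hs
  refine Conn.ind (S := S) (fun x => (x ∈ W → Conn (S ∩ (W ∪ Dr V W)) p x) ∧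
      (x ∉ W → ∀ d ∈ Dr V W, Conn (V \ W) x d → Conn (S ∩ (W ∪ Dr V W)) p d)) ?_ ?_ h
  · exact ⟨fun _ => Conn.refl ⟨h.left_mem, Or.inl hp⟩, fun h1 => absurd hp h1⟩
  · rintro u v hu huv hv ⟨ih1, ih2⟩
    by_cases huW : u ∈ W
    · refine ⟨fun hvW => (ih1 huW).tail huv ⟨hv, Or.inl hvW⟩, fun hvW d hd hvd => ?_⟩
      have hvD : v ∈ Dr V W := ⟨hSV hv, hvW, u, huW, huv⟩
      exact ((ih1 huW).tail huv ⟨hv, Or.inr hvD⟩).trans (hcon hvD hd hvd)
    · refine ⟨fun hvW => ?_, fun hvW d hd hvd => ?_⟩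
      · have huD : u ∈ Dr V W := ⟨hSV hu.right_mem, huW, v, hvW, Topo.adj_symm huv⟩
        exact (ih2 huW u huD (Conn.refl (S := V \ W) ⟨hSV hu.right_mem, huW⟩)).tail huv
          ⟨hv, Or.inl hvW⟩
      · have hsu : u ∈ V \ W := ⟨hSV hu.right_mem, huW⟩
        have hsv : v ∈ V \ W := ⟨hSV hv, hvW⟩
        exact ih2 huW d hd ((Conn.of_adj hsu hsv huv).trans hvd)

/-- The component of `p` in the box. -/
def Co (V : Set Pt) (x₀ : Pt) (R : ℤ) (p : Pt) : Set Pt := {x | Conn (V ∩ bx x₀ R) p x}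

theorem Co_subset : Co V x₀ R p ⊆ V ∩ bx x₀ R := fun _ h => h.right_mem

theorem Co_cn : ∀ x ∈ Co V x₀ R p, ∀ y ∈ Co V x₀ R p, Conn (Co V x₀ R p) x y := by
  have hto : ∀ x ∈ Co V x₀ R p, Conn (Co V x₀ R p) p x := by
    intro x hx
    refine Conn.ind (S := V ∩ bx x₀ R) (fun x => Conn (Co V x₀ R p) p x)
      (Conn.refl (Conn.refl hx.left_mem)) ?_ hx
    intro u v hu huv hv ih
    exact ih.tail huv (hu.tail huv hv)
  exact fun x hx y hy => (hto x hx).symm.trans (hto y hy)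

theorem Co_step (hx : x ∈ Co V x₀ R p) (hxy : Adj x y) (hy : y ∈ V) (hyb : y ∈ bx x₀ R) :
    y ∈ Co V x₀ R p := Conn.tail hx hxy ⟨hy, hyb⟩

theorem Dr_Co : Dr V (Co V x₀ R p) ⊆ V \ bx x₀ R := by
  rintro x ⟨h1, h2, w, hw, hwx⟩
  exact ⟨h1, fun hb => h2 (Co_step hw hwx h1 hb)⟩

/-- The component in the box together with everything off the box. -/
def Nr (V : Set Pt) (x₀ : Pt) (R : ℤ) (p : Pt) : Set Pt := Co V x₀ R p ∪ V \ bx x₀ R

theorem Nr_subset : Nr V x₀ R p ⊆ V := by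
  rintro x (h | h)
  · exact (Co_subset h).1
  · exact h.1

theorem CC_near (hV : CC V) (hx₀ : x₀ ∉ V) (hR : 0 ≤ R) : CC (Nr V x₀ R p) := by
  have hb : x₀ ∈ bx x₀ R := by
    simp only [bx, mem_ofPred_eq, sub_self, abs_zero]
    exact ⟨hR, hR⟩
  set U : Set Pt := (V ∩ bx x₀ R) \ Co V x₀ R p with hU
  have e : Nr V x₀ R p = V \ U := by
    ext x
    simp only [Nr, hU, Set.mem_union, Set.mem_sdiff, Set.mem_inter_iff]
    constructor
    · rintro (h | h)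
      · exact ⟨(Co_subset h).1, fun h' => h'.2 h⟩
      · exact ⟨h.1, fun h' => h.2 h'.1.2⟩
    · rintro ⟨h1, h2⟩
      by_cases h3 : x ∈ bx x₀ R
      · left
        by_contra h4
        exact h2 ⟨⟨h1, h3⟩, h4⟩
      · exact Or.inr ⟨h1, h3⟩
  rw [e]
  refine PLAN.CC_diff hV fun x hx => ?_
  obtain ⟨u, o, h1, h2, h3, h4⟩ := PLAN.first_exit (V := V) hx.1.1 hx₀
    (PLAN.cn_bx x₀ R x hx.1.2 x₀ hb)
  refine ⟨o, h4, ?_⟩
  have h5 : Conn (U ∪ Vᶜ) x u := by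
    refine Conn.ind (S := bx x₀ R ∩ V) (fun u => Conn (U ∪ Vᶜ) x u ∧ Conn (V ∩ bx x₀ R) x u)
      ⟨Conn.refl (Or.inl hx), Conn.refl hx.1⟩ ?_ h1 |>.1
    rintro a b ha hab hb' ⟨ih1, ih2⟩
    have h6 : Conn (V ∩ bx x₀ R) x b := ih2.tail hab ⟨hb'.2, hb'.1⟩
    refine ⟨ih1.tail hab (Or.inl ⟨⟨hb'.2, hb'.1⟩, fun h7 => hx.2 ?_⟩), h6⟩
    exact Conn.trans h7 h6.symm
  exact h5.tail h2 (Or.inr h4)

/-- The component in the box together with one component of the rest of `V`. -/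
theorem CC_exit (hV : CC V) (hf : V.Finite) (hx₀ : x₀ ∉ V) (hR : 0 ≤ R) :
    CC (Co V x₀ R p ∪ {x | Conn (V \ Co V x₀ R p) q x}) := by
  have hb : x₀ ∈ bx x₀ R := by
    simp only [bx, mem_ofPred_eq, sub_self, abs_zero]
    exact ⟨hR, hR⟩
  set W : Set Pt := Co V x₀ R p with hW
  set E : Set Pt := {x | Conn (V \ W) q x} with hE
  have hEV : E ⊆ V \ W := fun x hx => hx.right_mem
  set U : Set Pt := V \ (W ∪ E) with hU
  have e : W ∪ E = V \ U := by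
    ext x
    simp only [hU, Set.mem_sdiff, Set.mem_union]
    constructor
    · rintro (h | h)
      · exact ⟨(Co_subset h).1, fun h' => h'.2 (Or.inl h)⟩
      · exact ⟨(hEV h).1, fun h' => h'.2 (Or.inr h)⟩
    · rintro ⟨h1, h2⟩
      by_contra h3
      exact h2 ⟨h1, h3⟩
  rw [e]
  refine PLAN.CC_diff hV fun x hx => ?_
  have hxW : x ∉ W := fun h => hx.2 (Or.inl h)
  have hxE : x ∉ E := fun h => hx.2 (Or.inr h)
  -- a connected set which contains `x`, meets the outside, and meets `W` only if in its component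
  obtain ⟨S, o', hxS, ho'S, ho'V, hSc, hSW⟩ : ∃ (S : Set Pt) (o' : Pt), x ∈ S ∧ o' ∈ S ∧ o' ∉ V ∧
      (∀ a ∈ S, ∀ b ∈ S, Conn S a b) ∧ (∀ z, Conn (S ∩ V) x z → z ∉ W) := by
    by_cases hxb : x ∈ bx x₀ R
    · refine ⟨bx x₀ R, x₀, hxb, hb, hx₀, PLAN.cn_bx x₀ R, fun z hz hzW => hxW ?_⟩
      have hs : bx x₀ R ∩ V ⊆ V ∩ bx x₀ R := fun a ha => ⟨ha.2, ha.1⟩
      have h1 : Conn (V ∩ bx x₀ R) x z := hz.mono hs
      exact Conn.trans hzW h1.symm
    · obtain ⟨o', h1, h2⟩ := PLAN.exists_not_mem hf x₀ R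
      refine ⟨(bx x₀ R)ᶜ, o', hxb, h2, h1, PLAN.cn_compl_bx x₀ R, fun z hz hzW => ?_⟩
      exact hz.right_mem.1 (Co_subset hzW).2
  obtain ⟨u, o, h1, h2, h3, h4⟩ := PLAN.first_exit (V := V) hx.1 ho'V (hSc x hxS o' ho'S)
  refine ⟨o, h4, ?_⟩
  have h5 : Conn (U ∪ Vᶜ) x u := by
    refine Conn.ind (S := S ∩ V) (fun u => Conn (U ∪ Vᶜ) x u ∧ Conn (V \ W) x u)
      ⟨Conn.refl (Or.inl hx), Conn.refl ⟨hx.1, hxW⟩⟩ ?_ h1 |>.1
    rintro a b ha hab hb' ⟨ih1, ih2⟩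
    have hbW : b ∉ W := hSW b (ha.tail hab hb')
    have h6 : Conn (V \ W) x b := ih2.tail hab ⟨hb'.2, hbW⟩
    refine ⟨ih1.tail hab (Or.inl ⟨hb'.2, ?_⟩), h6⟩
    rintro (h7 | h7)
    · exact hbW h7
    · exact hxE (Conn.trans h7 h6.symm)
  exact h5.tail h2 (Or.inr h4)

/-- From a site off the box one reaches, off the box, a site next to the outside. -/
theorem exists_no (hf : V.Finite) {d : Pt} (hd : d ∈ V \ bx x₀ R) :
    ∃ q, NO V q ∧ q ∉ bx x₀ R ∧ Conn (V \ bx x₀ R) d q := by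
  obtain ⟨o', h1, h2⟩ := PLAN.exists_not_mem hf x₀ R
  obtain ⟨u, o, h3, h4, h5, h6⟩ := PLAN.first_exit (V := V) hd.1 h1
    (PLAN.cn_compl_bx x₀ R d hd.2 o' h2)
  have hs : (bx x₀ R)ᶜ ∩ V ⊆ V \ bx x₀ R := fun z hz => ⟨hz.2, hz.1⟩
  exact ⟨u, ⟨h3.right_mem.2, o, h4, h6⟩, h3.right_mem.1, h3.mono hs⟩

end Vale.Agent.P153.R2.LOC
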