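import Vale.Agent.P153.R2.LOC.Mult
import Vale.Agent.P153.R2.LOC.Door

/-!
# P153-R2, block LOC: one block, component version

Exact data `η ≥ m + 1` (`m = - 2 J`) off `F ⊆ V`; `W` = component of `p` in `V ∩ bx x₀ Rw`; the
walls next to `W` in the annulus have heights at least one. The other components of `V ∩ bx x₀ Rw`
are arbitrary. Then the attached part of `{h ≥ 1}` in `W ∩` annulus separates `p` from `q` in
`Nr V x₀ Rw p` with probability bounded below.
-/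

namespace Vale.Agent.P153.R2.LOC

open Set Relation
open Vale.Agent.P153
open Vale.Agent.P153.Topo (Conn)
open Vale.Agent.P153.R2
open scoped Classical

variable {V F B A : Set Pt} {I : Pt → Set ℤ} {x₀ p q x y : Pt} {r R Rw m : ℤ} {J : ℕ} {g h η : Hg}

/-- The taper. -/
def tp (m : ℤ) (x₀ : Pt) (r R : ℤ) (x : Pt) : ℤ := m + 1 + 2 * max 0 (dep x₀ r R x - 2)

/-- The tapered data. -/
def w4 (m : ℤ) (x₀ : Pt) (r R : ℤ) (η : Hg) (x : Pt) : ℤ :=
  if dep x₀ r R x ≤ 2 then m + 1 else min (η x) (tp m x₀ r R x)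

theorem tp_adj (h : Adj x y) : |tp m x₀ r R x - tp m x₀ r R y| ≤ 2 := by
  have h1 := dep_adj (x₀ := x₀) (r := r) (R := R) h
  rw [abs_le] at h1 ⊢
  unfold tp
  omega

theorem tp_ge : m + 1 ≤ tp m x₀ r R x := by
  unfold tp
  omega

theorem w4_eq (h : m + 1 ≤ η x) : w4 m x₀ r R η x = min (η x) (tp m x₀ r R x) := by
  unfold w4 tp
  split_ifs with h1
  · omega
  · rfl

theorem mem_An_dep : x ∈ An x₀ r R ↔ 2 ≤ dep x₀ r R x := by
  rw [mem_An_iff]
  unfold dep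
  omega

/-- The lower law on `F`. -/
noncomputable def L4 (m : ℤ) (V F : Set Pt) (x₀ : Pt) (r R : ℤ) (η : Hg) : Pt → Set ℤ := fun x =>
  if x ∈ nb F then
    (if x ∈ V ∧ x ∉ An x₀ r R then {m - 1, m + 1}
      else if x ∈ F then univ else {w4 m x₀ r R η x})
  else {η x}

/-- The same law on the component. -/
noncomputable def L5 (m : ℤ) (U : Set Pt) (x₀ : Pt) (r R : ℤ) (η : Hg) : Pt → Set ℤ := fun x =>
  if x ∈ U then (if x ∈ An x₀ r R then univ else {m - 1, m + 1}) else {w4 m x₀ r R η x}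

theorem w4_odd (hm : Even m) (hη : Odd (η x)) : Odd (w4 m x₀ r R η x) := by
  obtain ⟨k, hk⟩ := hm
  obtain ⟨l, hl⟩ := hη
  unfold w4 tp
  split_ifs with h1
  · exact ⟨k, by omega⟩
  · rcases le_total (η x) (m + 1 + 2 * max 0 (dep x₀ r R x - 2)) with h2 | h2
    · rw [min_eq_left h2]; exact ⟨l, hl⟩
    · rw [min_eq_right h2]
      exact ⟨k + max 0 (dep x₀ r R x - 2), by omega⟩

theorem exa_in (hx : x ∈ F) : exa F η x = univ := if_pos hx
theorem exa_out (hx : x ∉ F) : exa F η x = {η x} := if_neg hx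

theorem Cfg.eq_out (hg : g ∈ Cfg F (exa F η)) (hx : x ∉ F) : g x = η x := by
  have := hg.2.1 x
  rw [exa_out hx] at this
  exact this

theorem Dat_exa (hF : F.Finite) (η : Hg) : Dat F (exa F η) := by
  refine ⟨hF, fun x hx => ?_, hF.subset fun x hx => ?_⟩
  · rw [exa_out hx]; exact Set.finite_singleton _
  · by_contra h1
    apply hx
    rw [exa_out h1]; exact Set.subsingleton_singleton

/-- A configuration of the lower law. -/
noncomputable def gg (m : ℤ) (F : Set Pt) (x₀ : Pt) (r R : ℤ) (g : Hg) : Hg := fun x =>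
  if x ∈ nb F then max (min (g x) (tp m x₀ r R x)) (m - 1) else g x

theorem gg_mem (hm : Even m) (hg : g ∈ Cfg F (exa F η)) (hlow : ∀ z ∈ ebd F, m + 1 ≤ η z) :
    gg m F x₀ r R g ∈ Cfg F (L4 m V F x₀ r R η) := by
  obtain ⟨k, hk⟩ := hm
  refine ⟨fun x => ?_, fun x => ?_, fun x hx y hxy => ?_⟩
  · unfold gg
    obtain ⟨l, hl⟩ := hg.1 x
    split_ifs with h1
    · unfold tp
      rcases max_choice (min (g x) (m + 1 + 2 * max 0 (dep x₀ r R x - 2))) (m - 1) with h2 | h2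
      · rw [h2]
        rcases min_choice (g x) (m + 1 + 2 * max 0 (dep x₀ r R x - 2)) with h3 | h3
        · rw [h3]; exact ⟨l, hl⟩
        · rw [h3]; exact ⟨k + max 0 (dep x₀ r R x - 2), by omega⟩
      · rw [h2]; exact ⟨k - 1, by omega⟩
    · exact ⟨l, hl⟩
  · unfold gg L4
    obtain ⟨l, hl⟩ := hg.1 x
    split_ifs with h1 h2 h3
    · rw [mem_An_dep] at h2
      unfold tp
      simp only [Set.mem_insert_iff, Set.mem_singleton_iff]
      omega
    · exact Set.mem_univ _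
    · have h4 : x ∈ ebd F := h1.resolve_left h3
      have h5 := hlow x h4
      rw [Set.mem_singleton_iff, w4_eq h5, Cfg.eq_out hg h3]
      have h6 := tp_ge (m := m) (x₀ := x₀) (r := r) (R := R) (x := x)
      omega
    · rw [Cfg.eq_out hg fun h => h1 (Or.inl h)]
      exact Set.mem_singleton _
  · obtain ⟨h1, h2⟩ := Tr.mem_nb_of_left hx hxy
    unfold gg
    rw [if_pos h1, if_pos h2]
    have h3 := tp_adj (m := m) (x₀ := x₀) (r := r) (R := R) hxy
    have h4 := hg.2.2 x hx y hxy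
    rw [abs_le] at h3 h4 ⊢
    omega

theorem Dat_L4 (hF : F.Finite) {F' : Set Pt} (hF' : F' ⊆ F) (hA : F ∩ An x₀ r R ⊆ F')
    (hFV : F ⊆ V) : Dat F' (L4 m V F x₀ r R η) := by
  refine ⟨hF.subset hF', fun x hx => ?_, (nb_finite hF).subset fun x hx => ?_⟩
  · unfold L4
    split_ifs with h1 h2 h3
    · exact Set.toFinite _
    · exfalso
      apply hx
      apply hA
      refine ⟨h3, ?_⟩
      by_contra h4
      exact h2 ⟨hFV h3, h4⟩
    · exact Set.toFinite _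
    · exact Set.toFinite _
  · by_contra h1
    apply hx
    unfold L4
    rw [if_neg h1]; exact Set.subsingleton_singleton

theorem Cmp_L4 (hm : Even m) (hF : F.Finite) (hFV : F ⊆ V) (hne : (Cfg F (exa F η)).Nonempty)
    (hlow : ∀ z ∈ ebd F, m + 1 ≤ η z) : Cmp F (L4 m V F x₀ r R η) (exa F η) m 1 := by
  obtain ⟨g, hg⟩ := hne
  refine ⟨hm, Or.inl rfl, Dat_L4 hF subset_rfl Set.inter_subset_left hFV, Dat_exa hF η,
    (nb_finite hF).subset fun x hx => ?_, ⟨_, gg_mem hm hg hlow⟩, ⟨g, hg⟩, fun x => ?_⟩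
  · by_contra h1
    apply hx
    unfold L4
    rw [if_neg h1, exa_out fun h => h1 (Or.inl h)]
  · by_cases hx : x ∈ nb F
    · left
      unfold L4
      rw [if_pos hx]
      split_ifs with h2 h3
      · refine SdLe_free hm (Or.inl rfl) ?_
        by_cases h4 : x ∈ F
        · rw [exa_in h4]; exact Sd_univ m 1
        · rw [exa_out h4]
          have := hlow x (hx.resolve_left h4)
          exact Sd_single (by omega)
      · rw [exa_in h3]; exact SdLe.refl (Sd_univ m 1)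
      · rw [exa_out h3]
        have h5 := hlow x (hx.resolve_left h3)
        rw [w4_eq h5]
        have h6 := tp_ge (m := m) (x₀ := x₀) (r := r) (R := R) (x := x)
        refine SdLe_single (by omega) (by omega) ?_
        rw [abs_of_pos (by omega), abs_of_pos (by omega)]
        omega
    · right
      have h1 : L4 m V F x₀ r R η x = {η x} := by
        unfold L4
        rw [if_neg hx]
      refine ⟨hx, ?_, ?_⟩
      · rw [h1, exa_out fun h => hx (Or.inl h)]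
      · rw [h1]; exact Set.subsingleton_singleton

theorem L4_cut (hFV : F ⊆ V) :
    Cfg F (L4 m V F x₀ r R η) = Cfg (F ∩ An x₀ r R) (L4 m V F x₀ r R η) := by
  have e : F ∩ An x₀ r R = F \ (F \ An x₀ r R) := by
    ext x
    simp only [Set.mem_inter_iff, Set.mem_sdiff, not_and, not_not]
    tauto
  rw [e]
  refine Cfg_cut (m := m) (fun x hx => ?_) fun x hx y hyF _ hxy => ?_
  · unfold L4
    rw [if_pos (show x ∈ nb F from Or.inl hx.1), if_pos ⟨hFV hx.1, hx.2⟩]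
  · have hy : y ∈ nb F := Or.inr ⟨hyF, x, hx.1, hxy⟩
    unfold L4
    rw [if_pos hy, if_neg hyF]
    split_ifs with h1
    · exact subset_rfl
    · have h3 : dep x₀ r R x ≤ 1 := by
        have := hx.2
        rw [mem_An_dep] at this
        omega
      have h4 := dep_adj (x₀ := x₀) (r := r) (R := R) hxy
      rw [abs_le] at h4
      unfold w4
      rw [if_pos (by omega)]
      intro a ha
      rw [Set.mem_singleton_iff] at ha
      rw [ha]
      simp

theorem L5_cut {U : Set Pt} :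
    Cfg U (L5 m U x₀ r R η) = Cfg (U ∩ An x₀ r R) (L5 m U x₀ r R η) := by
  have e : U ∩ An x₀ r R = U \ (U \ An x₀ r R) := by
    ext x
    simp only [Set.mem_inter_iff, Set.mem_sdiff, not_and, not_not]
    tauto
  rw [e]
  refine Cfg_cut (m := m) (fun x hx => ?_) fun x hx y hyF _ hxy => ?_
  · unfold L5
    rw [if_pos hx.1, if_neg hx.2]
  · unfold L5
    rw [if_neg hyF]
    have h3 : dep x₀ r R x ≤ 1 := by
      have := hx.2
      rw [mem_An_dep] at this
      omega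
    have h4 := dep_adj (x₀ := x₀) (r := r) (R := R) hxy
    rw [abs_le] at h4
    unfold w4
    rw [if_pos (by omega)]
    intro a ha
    rw [Set.mem_singleton_iff] at ha
    rw [ha]
    simp

/-- The attached part in terms of the modulus. -/
theorem Wat_md2 {m : ℤ} (hm : m ≤ -2) (hg : ∀ x ∈ B, ∀ y, Adj x y → |g x - g y| ≤ 2)
    (hw : ∀ y ∈ B, ∀ z, z ∉ V → Adj y z → m < g z) : Wat V B (1 - m) (md m g) = Wat V B 1 g := by
  apply Subset.antisymm
  · rintro x ⟨y, z, h1, h2, h3⟩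
    have key : ∀ u, Conn (B ∩ up (md m g) (1 - m)) y u → Conn (B ∩ up g 1) y u ∧ 1 ≤ g u := by
      intro u hu
      refine Conn.ind (S := B ∩ up (md m g) (1 - m)) (fun u => Conn (B ∩ up g 1) y u ∧ 1 ≤ g u)
        ?_ ?_ hu
      · have hy := h1.right_mem
        have hz := hw y hy.1 z h3 h2
        have h4 : |g y - g z| ≤ 2 := hg y hy.1 z h2
        have h5 : 1 - m ≤ |g y - m| := hy.2
        rw [abs_le] at h4
        have h6 : 1 ≤ g y := by
          rcases le_abs.1 h5 with h6 | h6 <;> omega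
        exact ⟨Conn.refl ⟨hy.1, h6⟩, h6⟩
      · rintro u v hu' huv hv ⟨ih1, ih2⟩
        have h4 : |g u - g v| ≤ 2 := hg u ih1.right_mem.1 v huv
        have h5 : 1 - m ≤ |g v - m| := hv.2
        rw [abs_le] at h4
        have h6 : 1 ≤ g v := by
          rcases le_abs.1 h5 with h6 | h6 <;> omega
        exact ⟨ih1.tail huv ⟨hv.1, h6⟩, h6⟩
    exact ⟨y, z, (key x h1.symm).1.symm, h2, h3⟩
  · rintro x ⟨y, z, h1, h2, h3⟩
    have hs : B ∩ up g 1 ⊆ B ∩ up (md m g) (1 - m) := by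
      rintro u ⟨hu1, hu2⟩
      refine ⟨hu1, ?_⟩
      have h4 : 1 ≤ g u := hu2
      show 1 - m ≤ |g u - m|
      exact le_trans (by omega) (le_abs_self _)
    exact ⟨y, z, h1.mono hs, h2, h3⟩

theorem SepA_md2 {m : ℤ} (hm : m ≤ -2) (hg : ∀ x ∈ B, ∀ y, Adj x y → |g x - g y| ≤ 2)
    (hw : ∀ y ∈ B, ∀ z, z ∉ V → Adj y z → m < g z) :
    g ∈ SepA V B 1 p q ↔ g ∈ {g | md m g ∈ SepA V B (1 - m) p q} := by
  unfold SepA
  simp only [Set.mem_ofPred_eq]
  rw [Wat_md2 hm hg hw]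

/-- Hypotheses of one block; the free region is the annulus `r - J < ds ≤ R + J`. -/
structure BW (J : ℕ) (V F : Set Pt) (x₀ : Pt) (Rw : ℤ) (p : Pt) (r R : ℤ) (η : Hg) : Prop where
  sub : F ⊆ V
  ne : (Cfg F (exa F η)).Nonempty
  low : ∀ z ∈ ebd F, -2 * (J : ℤ) + 1 ≤ η z
  inn : ∀ x ∈ Co V x₀ Rw p, r - J < ds x₀ x → ds x₀ x ≤ R + J → x ∈ F
  wall : ∀ z, z ∉ V → ∀ x ∈ Co V x₀ Rw p, Adj x z → r ≤ ds x₀ z → ds x₀ z ≤ R + 1 → 1 ≤ η z

theorem An_subset_bx (h : R ≤ Rw) : An x₀ r R ⊆ bx x₀ Rw := by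
  intro x hx
  rw [mem_An_iff] at hx
  rw [mem_bx_iff]
  omega

theorem mem_Co_of (h : R ≤ Rw) (hx : x ∈ Nr V x₀ Rw p) (hxb : ds x₀ x ≤ R) : x ∈ Co V x₀ Rw p := by
  rcases hx with h1 | h1
  · exact h1
  · exact absurd (mem_bx_iff.2 (hxb.trans h)) h1.2

theorem Nr_step (h : R + 1 ≤ Rw) (hx : x ∈ Nr V x₀ Rw p) (hxb : ds x₀ x ≤ R) (hxy : Adj x y)
    (hy : y ∈ V) : y ∈ Co V x₀ Rw p := by
  have h1 := mem_Co_of (R := R) (by omega) hx hxb
  have h2 := ds_adj (x₀ := x₀) hxy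
  rw [abs_le] at h2
  exact Co_step h1 hxy hy (mem_bx_iff.2 (by omega))

/-- Comparison of the law on `F` with the lowest law on the component. -/
theorem blockW_aux (hJ : 1 ≤ J) (hVf : V.Finite) (hη : η ∈ Cfg F (exa F η))
    (hRw : R + J + 1 ≤ Rw) (hb : BW J V F x₀ Rw p r R η) :
    Pr (Cfg (Nr V x₀ Rw p) (L5 (-2 * (J : ℤ)) (Nr V x₀ Rw p) x₀ (r - J) (R + J) η))
        (SepA (Nr V x₀ Rw p) (Nr V x₀ Rw p ∩ An x₀ r R) 1 p q) ≤
      Pr (Cfg F (exa F η)) (SepA (Nr V x₀ Rw p) (Nr V x₀ Rw p ∩ An x₀ r R) 1 p q) ∧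
    Blk J (Nr V x₀ Rw p) (An x₀ r R)
      (L5 (-2 * (J : ℤ)) (Nr V x₀ Rw p) x₀ (r - J) (R + J) η) := by
  set m : ℤ := -2 * (J : ℤ) with hm
  have hJ' : (1 : ℤ) ≤ J := by exact_mod_cast hJ
  have hm2 : m ≤ -2 := by omega
  have hme : Even m := ⟨-(J : ℤ), by rw [hm]; ring⟩
  set r₁ : ℤ := r - J with hr₁
  set R₁ : ℤ := R + J with hR₁
  set U : Set Pt := Nr V x₀ Rw p with hU
  set B : Set Pt := U ∩ An x₀ r R with hB
  have hFf : F.Finite := hVf.subset hb.sub
  have hUV : U ⊆ V := Nr_subset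
  have hUf : U.Finite := hVf.subset hUV
  have hlow : ∀ z ∈ ebd F, m + 1 ≤ η z := hb.low
  -- sites of `U` in the large annulus
  have hUA : ∀ x ∈ U, x ∈ An x₀ r₁ R₁ → x ∈ Co V x₀ Rw p ∧ x ∈ F := by
    intro x hx hxA
    rw [mem_An_iff] at hxA
    have h1 := mem_Co_of (R := R₁) (by omega) hx hxA.2
    exact ⟨h1, hb.inn x h1 hxA.1 hxA.2⟩
  -- neighbours in `V` of such sites
  have hstep : ∀ x ∈ U, ds x₀ x ≤ R₁ → ∀ y ∈ V, Adj x y → y ∈ Co V x₀ Rw p := by
    intro x hx hxb y hy hxy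
    exact Nr_step (R := R₁) (by omega) hx hxb hxy hy
  have hBF : B ⊆ F := by
    intro x hx
    refine (hUA x hx.1 ?_).2
    have h1 := mem_An_iff.1 hx.2
    rw [mem_An_iff]
    omega
  have hsmall : B ⊆ U ∩ An x₀ r₁ R₁ := by
    intro x hx
    have h1 := mem_An_iff.1 hx.2
    refine ⟨hx.1, ?_⟩
    rw [mem_An_iff]
    omega
  -- the outside of `U` next to the large annulus
  have hwA : ∀ y ∈ U ∩ An x₀ r₁ R₁, ∀ z, z ∉ U → Adj y z → z ∉ V ∧ z ∉ F ∧ z ∈ ebd F := by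
    intro y hy z hz hyz
    have hzV : z ∉ V := by
      intro h1
      have h2 := hstep y hy.1 (by have := mem_An_iff.1 hy.2; omega) z h1 hyz
      exact hz (Or.inl h2)
    have hzF : z ∉ F := fun h => hzV (hb.sub h)
    exact ⟨hzV, hzF, hzF, y, (hUA y hy.1 hy.2).2, hyz⟩
  have hKx : ∀ x ∈ ebd (U ∩ An x₀ r₁ R₁), x ∈ V → x ∈ Co V x₀ Rw p ∧ x ∉ An x₀ r₁ R₁ := by
    rintro x ⟨h1, y, hy, hyx⟩ hxV
    have h2 := hstep y hy.1 (by have := mem_An_iff.1 hy.2; omega) x hxV hyx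
    exact ⟨h2, fun h3 => h1 ⟨Or.inl h2, h3⟩⟩
  -- step 1: lower law
  have hcmp := Cmp_L4 (V := V) (x₀ := x₀) (r := r₁) (R := R₁) hme hFf hb.sub hb.ne hlow
  have key := md_Pr_mono0 hcmp (A := SepA U B (1 - m) p q) SepA_upper
  have c2 : Pr (Cfg F (exa F η)) (SepA U B 1 p q) =
      Pr (Cfg F (exa F η)) {g | md m g ∈ SepA U B (1 - m) p q} := by
    refine Pr_congr fun g hg => SepA_md2 hm2 (fun x hx y hxy => hg.2.2 x (hBF hx) y hxy)
      fun y hy z hz hyz => ?_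
    obtain ⟨hzV, hzF, hze⟩ := hwA y (hsmall hy) z hz hyz
    rw [Cfg.eq_out hg hzF]
    have := hlow z hze
    omega
  have c1 : Pr (Cfg F (L4 m V F x₀ r₁ R₁ η)) (SepA U B 1 p q) =
      Pr (Cfg F (L4 m V F x₀ r₁ R₁ η)) {g | md m g ∈ SepA U B (1 - m) p q} := by
    refine Pr_congr fun g hg => SepA_md2 hm2 (fun x hx y hxy => hg.2.2 x (hBF hx) y hxy)
      fun y hy z hz hyz => ?_
    obtain ⟨hzV, hzF, hze⟩ := hwA y (hsmall hy) z hz hyz
    have h1 := hg.2.1 z
    unfold L4 at h1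
    rw [if_pos (show z ∈ nb F from Or.inr hze), if_neg (fun h => hzV h.1), if_neg hzF,
      Set.mem_singleton_iff, w4_eq (hlow z hze)] at h1
    have h2 := hlow z hze
    have h3 := tp_ge (m := m) (x₀ := x₀) (r := r₁) (R := R₁) (x := z)
    omega
  rw [← c2, ← c1] at key
  -- step 2: the law on `U`
  have nL4 : (Cfg F (L4 m V F x₀ r₁ R₁ η)).Nonempty := ⟨_, gg_mem hme hη hlow⟩
  have nL5 : (Cfg (U ∩ An x₀ r₁ R₁) (L5 m U x₀ r₁ R₁ η)).Nonempty := by
    have ho1 : ∀ x, Odd (max (min (η x) (tp m x₀ r₁ R₁ x)) (m - 1)) := by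
      intro x
      obtain ⟨k, hk⟩ := hme
      obtain ⟨l, hl⟩ := hη.1 x
      unfold tp
      rcases max_choice (min (η x) (m + 1 + 2 * max 0 (dep x₀ r₁ R₁ x - 2))) (m - 1) with h2 | h2
      · rw [h2]
        rcases min_choice (η x) (m + 1 + 2 * max 0 (dep x₀ r₁ R₁ x - 2)) with h3 | h3
        · rw [h3]; exact ⟨l, hl⟩
        · rw [h3]; exact ⟨k + max 0 (dep x₀ r₁ R₁ x - 2), by omega⟩
      · rw [h2]; exact ⟨k - 1, by omega⟩
    refine ⟨fun x => if x ∈ nb (U ∩ An x₀ r₁ R₁) then max (min (η x) (tp m x₀ r₁ R₁ x)) (m - 1)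
      else if x ∈ U then m + 1 else w4 m x₀ r₁ R₁ η x, fun x => ?_, fun x => ?_,
      fun x hx y hxy => ?_⟩
    · dsimp only
      split_ifs
      · exact ho1 x
      · exact hme.add_odd odd_one
      · exact w4_odd hme (hη.1 x)
    · dsimp only
      unfold L5
      by_cases h1 : x ∈ nb (U ∩ An x₀ r₁ R₁)
      · rw [if_pos h1]
        split_ifs with h2 h3
        · exact Set.mem_univ _
        · rw [mem_An_dep] at h3
          obtain ⟨k, hk⟩ := hme
          obtain ⟨l, hl⟩ := hη.1 x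
          unfold tp
          simp only [Set.mem_insert_iff, Set.mem_singleton_iff]
          omega
        · obtain ⟨-, y, hy, hyx⟩ := h1.resolve_left fun h => h2 h.1
          obtain ⟨hzV, hzF, hze⟩ := hwA y hy x h2 hyx
          have h4 := hlow x hze
          have h5 := tp_ge (m := m) (x₀ := x₀) (r := r₁) (R := R₁) (x := x)
          rw [Set.mem_singleton_iff, w4_eq h4]
          omega
      · rw [if_neg h1]
        split_ifs with h2 h3
        · exact Set.mem_univ _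
        · simp
        · rfl
    · obtain ⟨h1, h2⟩ := Tr.mem_nb_of_left hx hxy
      dsimp only
      rw [if_pos h1, if_pos h2]
      have h3 := tp_adj (m := m) (x₀ := x₀) (r := r₁) (R := R₁) hxy
      have h4 := hη.2.2 x (hUA x hx.1 hx.2).2 y hxy
      rw [abs_le] at h3 h4 ⊢
      omega
  have hFA : U ∩ An x₀ r₁ R₁ ⊆ F ∩ An x₀ r₁ R₁ := fun x hx => ⟨(hUA x hx.1 hx.2).2, hx.2⟩
  have d4 : Dat (F ∩ An x₀ r₁ R₁) (L4 m V F x₀ r₁ R₁ η) :=
    Dat_L4 hFf Set.inter_subset_left subset_rfl hb.sub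
  have d5' : Dat U (L5 m U x₀ r₁ R₁ η) := by
    refine ⟨hUf, fun x hx => ?_, hUf.subset fun x hx => ?_⟩
    · unfold L5
      rw [if_neg hx]; exact Set.finite_singleton _
    · by_contra h1
      apply hx
      unfold L5
      rw [if_neg h1]; exact Set.subsingleton_singleton
  have d5 : Dat (U ∩ An x₀ r₁ R₁) (L5 m U x₀ r₁ R₁ η) := by
    refine ⟨hUf.subset Set.inter_subset_left, fun x hx => ?_, d5'.cof⟩
    by_cases h1 : x ∈ U
    · unfold L5
      rw [if_pos h1, if_neg fun h => hx ⟨h1, h⟩]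
      exact Set.toFinite _
    · exact d5'.bdd x h1
  have hswap : Ex (Cfg (F ∩ An x₀ r₁ R₁) (L4 m V F x₀ r₁ R₁ η)) (ind (SepA U B 1 p q)) =
      Ex (Cfg (U ∩ An x₀ r₁ R₁) (L5 m U x₀ r₁ R₁ η)) (ind (SepA U B 1 p q)) := by
    have hsw := Ex_swap (K := nb (U ∩ An x₀ r₁ R₁)) d4 d5 ?_ ?_ ?_ ?_ ?_
      (OffDet_univ _) (OffDet_univ _) (by rw [inter_univ, ← L4_cut hb.sub]; exact nL4)
      (by rw [inter_univ]; exact nL5) (F := ind (SepA U B 1 p q)) ?_
    · simpa only [inter_univ] using hsw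
    · -- data agree
      intro x hx
      by_cases hxU : x ∈ U ∩ An x₀ r₁ R₁
      · have h1 := hUA x hxU.1 hxU.2
        unfold L4 L5
        rw [if_pos (show x ∈ nb F from Or.inl h1.2), if_neg (fun h => h.2 hxU.2), if_pos h1.2,
          if_pos hxU.1, if_pos hxU.2]
      · have hxe : x ∈ ebd (U ∩ An x₀ r₁ R₁) := hx.resolve_left hxU
        obtain ⟨y, hy, hyx⟩ := hxe.2
        have hyF : y ∈ F := (hUA y hy.1 hy.2).2
        have hxn : x ∈ nb F := (Tr.mem_nb_of_left hyF hyx).2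
        by_cases hxV : x ∈ V
        · obtain ⟨h1, h2⟩ := hKx x hxe hxV
          unfold L4 L5
          rw [if_pos hxn, if_pos ⟨hxV, h2⟩, if_pos (show x ∈ U from Or.inl h1), if_neg h2]
        · have hxU' : x ∉ U := fun h => hxV (hUV h)
          unfold L4 L5
          rw [if_pos hxn, if_neg (fun h => hxV h.1), if_neg (fun h => hxV (hb.sub h)),
            if_neg hxU']
    · intro x hx y hy hxy hxF
      by_cases hxU : x ∈ U ∩ An x₀ r₁ R₁
      · exact Or.inl hxU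
      · have hxe : x ∈ ebd (U ∩ An x₀ r₁ R₁) := hx.resolve_left hxU
        exact absurd hxF.2 (hKx x hxe (hb.sub hxF.1)).2
    · intro x hx y hy hxy hxU
      exact Or.inl (hFA hxU)
    · intro x hx y hyK hxy hV'
      have hxU : x ∉ U ∩ An x₀ r₁ R₁ := fun h => hyK (Tr.mem_nb_of_left h hxy).2
      have hxe : x ∈ ebd (U ∩ An x₀ r₁ R₁) := hx.resolve_left hxU
      have hxV : x ∉ V := by
        intro hxV
        obtain ⟨h1, h2⟩ := hKx x hxe hxV
        rcases hV' with h3 | h3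
        · exact h2 h3.2
        · apply hyK
          left
          refine ⟨Or.inl (Co_step h1 hxy (hb.sub h3.1) ?_), h3.2⟩
          exact An_subset_bx (by omega) h3.2
      unfold L4
      by_cases h4 : x ∈ nb F
      · rw [if_pos h4, if_neg (fun h => hxV h.1), if_neg (fun h => hxV (hb.sub h))]
        exact Set.subsingleton_singleton
      · rw [if_neg h4]
        exact Set.subsingleton_singleton
    · intro x hx y hyK hxy hV'
      exfalso
      rcases hV' with h3 | h3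
      · exact hyK (Tr.mem_nb_of_left h3 hxy).2
      · exact hyK (Or.inl h3)
    · intro a b hab
      have h1 : a ∈ SepA U B 1 p q ↔ b ∈ SepA U B 1 p q :=
        SepA_congr fun x hx => hab x (Or.inl (hsmall hx))
      unfold ind
      by_cases h2 : a ∈ SepA U B 1 p q
      · rw [if_pos h2, if_pos (h1.1 h2)]
      · rw [if_neg h2, if_neg fun h3 => h2 (h1.2 h3)]
  have e4 : Pr (Cfg F (L4 m V F x₀ r₁ R₁ η)) (SepA U B 1 p q) =
      Pr (Cfg U (L5 m U x₀ r₁ R₁ η)) (SepA U B 1 p q) := by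
    rw [L4_cut hb.sub, L5_cut, Pr_eq_Ex (Cfg_finite d4), Pr_eq_Ex (Cfg_finite d5), hswap]
  refine ⟨by rw [← e4]; exact key, ⟨d5', by rw [L5_cut]; exact nL5, ?_, ?_, ?_, ?_⟩⟩
  · intro x hx hxA
    have hx1 : x ∈ U ∩ An x₀ r₁ R₁ := hsmall ⟨hx, hxA⟩
    unfold L5
    rw [if_pos hx, if_pos hx1.2]
  · intro x hx
    unfold L5
    rw [if_pos hx]
    split_ifs
    · exact Or.inl rfl
    · right
      intro a ha
      simp only [Set.mem_insert_iff, Set.mem_singleton_iff] at ha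
      omega
  · intro x hx a ha
    unfold L5 at ha
    rw [if_neg hx.1, Set.mem_singleton_iff] at ha
    by_cases h1 : dep x₀ r₁ R₁ x ≤ 2
    · unfold w4 at ha
      rw [if_pos h1] at ha
      omega
    · obtain ⟨hxU, y, hy, hyx⟩ := hx
      have h2 := dep_adj (x₀ := x₀) (r := r₁) (R := R₁) hyx
      rw [abs_le] at h2
      have h3 : y ∈ An x₀ r₁ R₁ := by rw [mem_An_dep]; omega
      obtain ⟨hzV, hzF, hze⟩ := hwA y ⟨hy, h3⟩ x hxU hyx
      have h4 := hlow x hze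
      rw [w4_eq h4] at ha
      have h5 := tp_ge (m := m) (x₀ := x₀) (r := r₁) (R := R₁) (x := x)
      omega
  · intro x hx hxA
    obtain ⟨hxU, y, hy, hyx⟩ := hx
    rw [mem_An_iff] at hxA
    have h1 : (J : ℤ) + 2 ≤ dep x₀ r₁ R₁ x := by
      unfold dep
      omega
    have h2 := dep_adj (x₀ := x₀) (r := r₁) (R := R₁) hyx
    rw [abs_le] at h2
    have h3 : y ∈ An x₀ r₁ R₁ := by rw [mem_An_dep]; omega
    obtain ⟨hzV, hzF, hze⟩ := hwA y ⟨hy, h3⟩ x hxU hyx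
    have h4 := hlow x hze
    have h5 := hb.wall x hzV y (hUA y hy h3).1 hyx (by omega) (by omega)
    refine SLe_of_ge fun a ha => ?_
    unfold L5 at ha
    rw [if_neg hxU, Set.mem_singleton_iff, w4_eq h4] at ha
    unfold tp at ha
    omega

/-- **One block, component version.** -/
theorem blockW (hJ : 1 ≤ J) (hS : S_land (J + 1)) : ∃ α : ℝ, 0 < α ∧ ∃ N : ℤ, 1 ≤ N ∧
    ∃ r₀ : ℤ, 1 ≤ r₀ ∧
    ∀ (V F : Set Pt) (x₀ : Pt) (Rw r : ℤ) (p q : Pt) (η : Hg), V.Finite → CC V → x₀ ∉ V →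
      r₀ ≤ r → NO V p → NO V q → p ∈ bx x₀ r → q ∉ bx x₀ Rw → N * r + J + 1 ≤ Rw →
      BW J V F x₀ Rw p r (N * r) η →
      α ≤ Pr (Cfg F (exa F η))
        (SepA (Nr V x₀ Rw p) (Nr V x₀ Rw p ∩ An x₀ r (N * r)) 1 p q) := by
  obtain ⟨α, hα, N, hN, r₀, hr₀, hblk⟩ := block (j := J) hS
  refine ⟨α, hα, N, hN, r₀, hr₀, fun V F x₀ Rw r p q η hVf hV hx₀ hr hp hq hpr hqr hRw hb => ?_⟩
  obtain ⟨g₀, hg₀⟩ := hb.ne
  have heq : exa F η = exa F g₀ := by
    funext x
    by_cases hx : x ∈ F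
    · rw [exa_in hx, exa_in hx]
    · rw [exa_out hx, exa_out hx, Cfg.eq_out hg₀ hx]
  have hb' : BW J V F x₀ Rw p r (N * r) g₀ := by
    refine ⟨hb.sub, by rw [← heq]; exact hb.ne, fun z hz => ?_, hb.inn, fun z hz x hx hxz h1 h2 => ?_⟩
    · rw [Cfg.eq_out hg₀ hz.1]; exact hb.low z hz
    · rw [Cfg.eq_out hg₀ fun h => hz (hb.sub h)]; exact hb.wall z hz x hx hxz h1 h2
  rw [heq] at hg₀ ⊢
  have hNr : r ≤ N * r := by nlinarith
  have hJ' : (1 : ℤ) ≤ J := by exact_mod_cast hJ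
  obtain ⟨h1, h2⟩ := blockW_aux (q := q) hJ hVf hg₀ hRw hb'
  refine le_trans ?_ h1
  have hpb : p ∈ bx x₀ Rw := by
    rw [mem_bx_iff] at hpr ⊢
    omega
  have hpU : p ∈ Nr V x₀ Rw p := Or.inl (Conn.refl ⟨hp.1, hpb⟩)
  have hqU : q ∈ Nr V x₀ Rw p := Or.inr ⟨hq.1, hqr⟩
  obtain ⟨op, hop1, hop2⟩ := hp.2
  obtain ⟨oq, hoq1, hoq2⟩ := hq.2
  exact hblk (Nr V x₀ Rw p) _ x₀ r p q (CC_near hV hx₀ (by omega)) (fun h => hx₀ (Nr_subset h)) hr
    ⟨hpU, op, hop1, fun h => hop2 (Nr_subset h)⟩ ⟨hqU, oq, hoq1, fun h => hoq2 (Nr_subset h)⟩ hpr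
    (fun h => hqr (by rw [mem_bx_iff] at h ⊢; omega)) h2

end Vale.Agent.P153.R2.LOC
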