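import Vale.Agent.P153.R2.LOC.Dual
import Vale.Agent.P153.R2.FKGK.Pos

/-!
# P153-R2, block LOC: one block

`LW i V x₀ r R`: the lowest law: the sites of `V` off the annulus are frozen at the level `-2 i`
(heights `-2 i ± 1`), the walls in the annulus carry free data `{-1, 1}` (tapered to the level
`-2 i` within distance `i` of the boundary of the annulus).
`S_land i`: landing for this law. `Blk j`: all the laws with data `≥ -(2 j + 1)`, walls at least
free in the annulus. `block`: in all these laws the attached part of `{h ≥ 1}` in the annulus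
separates with probability bounded below.
-/

namespace Vale.Agent.P153.R2.LOC

open Set Relation
open Vale.Agent.P153
open Vale.Agent.P153.Topo (Conn)
open Vale.Agent.P153.R2
open scoped Classical

/-- Distance. -/
def ds (x₀ x : Pt) : ℤ := max |x.1 - x₀.1| |x.2 - x₀.2|

/-- Depth in the annulus `r < ds ≤ R` (`1` on the layers next to it). -/
def dep (x₀ : Pt) (r R : ℤ) (x : Pt) : ℤ := min (ds x₀ x - r + 1) (R + 2 - ds x₀ x)

/-- The tapered level. -/
def hL (i : ℕ) (x₀ : Pt) (r R : ℤ) (x : Pt) : ℤ :=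
  -2 * (i : ℤ) - 1 + 2 * max 0 (min (i : ℤ) (dep x₀ r R x))

/-- The lowest law. -/
noncomputable def LW (i : ℕ) (V : Set Pt) (x₀ : Pt) (r R : ℤ) : Pt → Set ℤ := fun x =>
  if x ∈ V then (if x ∈ An x₀ r R then univ else {-2 * (i : ℤ) - 1, -2 * (i : ℤ) + 1})
  else if x ∈ ebd V then
    (if dep x₀ r R x ≤ 0 then {-2 * (i : ℤ) - 1, -2 * (i : ℤ) + 1}
      else if dep x₀ r R x ≤ i then {-2 * (i : ℤ) - 1 + 2 * dep x₀ r R x} else {-1, 1})
  else {hL i x₀ r R x}

/-- Landing in one block, for the lowest law. -/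
def S_land (i : ℕ) : Prop := ∃ α : ℝ, 0 < α ∧ ∃ N : ℤ, 1 ≤ N ∧ ∃ r₀ : ℤ, 1 ≤ r₀ ∧
  ∀ (V : Set Pt) (x₀ : Pt) (r : ℤ) (p q : Pt), V.Finite → CC V → x₀ ∉ V → r₀ ≤ r →
    NO V p → NO V q → p ∈ bx x₀ r → q ∉ bx x₀ (N * r) →
    α ≤ Pr (Cfg V (LW i V x₀ r (N * r))) {h | ¬ Conn (V ∩ dn h (-1)) p q}

/-- The laws with data at least `-(2 j + 1)`, free sites in the annulus, and walls at least free in
the annulus. -/
structure Blk (j : ℕ) (V A : Set Pt) (I : Pt → Set ℤ) : Prop where
  dat : Dat V I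
  ne : (Cfg V I).Nonempty
  inn : ∀ x ∈ V, x ∈ A → I x = univ
  offv : ∀ x ∈ V, I x = univ ∨ ∀ a ∈ I x, -(2 * (j : ℤ) + 1) ≤ a
  wall : ∀ x ∈ ebd V, ∀ a ∈ I x, -(2 * (j : ℤ) + 1) ≤ a
  wallA : ∀ x ∈ ebd V, x ∈ A → SLe {-1, 1} (I x)

variable {V B A : Set Pt} {I : Pt → Set ℤ} {x₀ p q x y : Pt} {r R : ℤ} {i j : ℕ} {g h : Hg}

theorem mem_bx_iff : x ∈ bx x₀ r ↔ ds x₀ x ≤ r := by
  unfold bx ds
  simp only [Set.mem_ofPred_eq, max_le_iff]

theorem mem_An_iff : x ∈ An x₀ r R ↔ r < ds x₀ x ∧ ds x₀ x ≤ R := by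
  unfold An
  rw [Set.mem_sdiff, mem_bx_iff, mem_bx_iff, not_le]
  exact and_comm

theorem ds_adj (h : Adj x y) : |ds x₀ x - ds x₀ y| ≤ 1 := by
  have h1 : |(|x.1 - x₀.1| - |y.1 - x₀.1|)| ≤ 1 := by
    refine (abs_abs_sub_abs_le_abs_sub _ _).trans ?_
    rw [Topo.adj_iff] at h
    rw [abs_le]
    omega
  have h2 : |(|x.2 - x₀.2| - |y.2 - x₀.2|)| ≤ 1 := by
    refine (abs_abs_sub_abs_le_abs_sub _ _).trans ?_
    rw [Topo.adj_iff] at h
    rw [abs_le]
    omega
  unfold ds
  exact (abs_max_sub_max_le_max _ _ _ _).trans (max_le h1 h2)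

theorem dep_adj (h : Adj x y) : |dep x₀ r R x - dep x₀ r R y| ≤ 1 := by
  have h1 := ds_adj (x₀ := x₀) h
  rw [abs_le] at h1 ⊢
  unfold dep
  omega

theorem hL_adj (h : Adj x y) : |hL i x₀ r R x - hL i x₀ r R y| ≤ 2 := by
  have h1 := dep_adj (x₀ := x₀) (r := r) (R := R) h
  rw [abs_le] at h1 ⊢
  unfold hL
  omega

theorem hL_odd (x : Pt) : Odd (hL i x₀ r R x) := by
  unfold hL
  exact ⟨-(i : ℤ) - 1 + max 0 (min (i : ℤ) (dep x₀ r R x)), by ring⟩

theorem hL_mem (i : ℕ) (V : Set Pt) (x₀ : Pt) (r R : ℤ) (x : Pt) :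
    hL i x₀ r R x ∈ LW i V x₀ r R x := by
  unfold LW
  split_ifs with h1 h2 h3 h4 h5
  · exact Set.mem_univ _
  · have h6 : dep x₀ r R x ≤ 1 := by
      rw [mem_An_iff] at h2
      unfold dep
      omega
    unfold hL
    simp only [Set.mem_insert_iff, Set.mem_singleton_iff]
    omega
  · unfold hL
    simp only [Set.mem_insert_iff, Set.mem_singleton_iff]
    omega
  · unfold hL
    rw [Set.mem_singleton_iff]
    omega
  · unfold hL
    simp only [Set.mem_insert_iff, Set.mem_singleton_iff]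
    omega
  · rfl

theorem hL_Cfg (i : ℕ) (V : Set Pt) (x₀ : Pt) (r R : ℤ) : hL i x₀ r R ∈ Cfg V (LW i V x₀ r R) :=
  ⟨fun x => hL_odd x, fun x => hL_mem i V x₀ r R x, fun _ _ _ hxy => hL_adj hxy⟩

theorem LW_off (hx : x ∉ nb V) : LW i V x₀ r R x = {hL i x₀ r R x} := by
  unfold LW
  rw [if_neg (fun h => hx (Or.inl h)), if_neg (fun h => hx (Or.inr h))]

theorem Dat_LW (hV : V.Finite) : Dat V (LW i V x₀ r R) := by
  refine ⟨hV, fun x hx => ?_, ?_⟩
  · unfold LW
    rw [if_neg hx]
    split_ifs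
    · exact Set.toFinite _
    · exact Set.toFinite _
    · exact Set.toFinite _
    · exact Set.toFinite _
  · refine (nb_finite hV).subset fun x hx => ?_
    by_contra h1
    apply hx
    rw [LW_off h1]
    exact Set.subsingleton_singleton

/-- The attached part in terms of the modulus. -/
theorem Wat_md {m : ℤ} (hm : m ≤ -2) (hg : g ∈ Cfg V I) (hBV : B ⊆ V)
    (hw : ∀ y ∈ B, ∀ z, z ∉ V → Adj y z → m < g z) : Wat V B (1 - m) (md m g) = Wat V B 1 g := by
  apply Subset.antisymm
  · rintro x ⟨y, z, h1, h2, h3⟩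
    have key : ∀ u, Conn (B ∩ up (md m g) (1 - m)) y u → Conn (B ∩ up g 1) y u ∧ 1 ≤ g u := by
      intro u hu
      refine Conn.ind (S := B ∩ up (md m g) (1 - m)) (fun u => Conn (B ∩ up g 1) y u ∧ 1 ≤ g u)
        ?_ ?_ hu
      · have hy := h1.right_mem
        have hz := hw y hy.1 z h3 h2
        have h4 : |g y - g z| ≤ 2 := hg.2.2 y (hBV hy.1) z h2
        have h5 : 1 - m ≤ |g y - m| := hy.2
        rw [abs_le] at h4
        have h6 : 1 ≤ g y := by
          rcases le_abs.1 h5 with h6 | h6 <;> omega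
        exact ⟨Conn.refl ⟨hy.1, h6⟩, h6⟩
      · rintro u v hu' huv hv ⟨ih1, ih2⟩
        have h4 : |g u - g v| ≤ 2 := hg.2.2 u (hBV ih1.right_mem.1) v huv
        have h5 : 1 - m ≤ |g v - m| := hv.2
        rw [abs_le] at h4
        have h6 : 1 ≤ g v := by
          rcases le_abs.1 h5 with h6 | h6 <;> omega
        exact ⟨ih1.tail huv ⟨hv.1, h6⟩, h6⟩
    exact ⟨y, z, (key x h1.symm).1.symm, h2, h3⟩
  · rintro x ⟨y, z, h1, h2, h3⟩
    have hs : B ∩ up g 1 ⊆ B ∩ up (md m g) (1 - m) := by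
      rintro u ⟨hu1, hu2⟩
      refine ⟨hu1, ?_⟩
      have h4 : 1 ≤ g u := hu2
      show 1 - m ≤ |g u - m|
      exact le_trans (by omega) (le_abs_self _)
    exact ⟨y, z, h1.mono hs, h2, h3⟩

theorem SepA_md {m : ℤ} (hm : m ≤ -2) (hg : g ∈ Cfg V I) (hBV : B ⊆ V)
    (hw : ∀ y ∈ B, ∀ z, z ∉ V → Adj y z → m < g z) :
    g ∈ SepA V B 1 p q ↔ g ∈ {g | md m g ∈ SepA V B (1 - m) p q} := by
  unfold SepA
  simp only [Set.mem_ofPred_eq]
  rw [Wat_md hm hg hBV hw]

theorem mem_ebd_of_adj (hy : y ∈ V) (hyx : Adj y x) (hx : x ∉ V) : x ∈ ebd V := ⟨hx, y, hy, hyx⟩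

/-- **One block.** -/
theorem block_le (hb : Blk j V (An x₀ r R) I) :
    Pr (Cfg V (LW (j + 1) V x₀ r R)) (SepA V (V ∩ An x₀ r R) 1 p q) ≤
      Pr (Cfg V I) (SepA V (V ∩ An x₀ r R) 1 p q) := by
  set m : ℤ := -2 * ((j + 1 : ℕ) : ℤ) with hm
  have hm2 : m ≤ -2 := by rw [hm]; push_cast; omega
  have hme : Even m := ⟨-((j + 1 : ℕ) : ℤ), by rw [hm]; ring⟩
  obtain ⟨g₀, hg₀⟩ := hb.ne
  -- the lowest law with the data of `I` far away
  set L : Pt → Set ℤ := fun x => if x ∈ nb V then LW (j + 1) V x₀ r R x else {g₀ x} with hLdef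
  set J : Pt → Set ℤ := fun x => if x ∈ nb V then I x else {g₀ x} with hJdef
  have hLin : ∀ x ∈ nb V, L x = LW (j + 1) V x₀ r R x := fun x hx => if_pos hx
  have hJin : ∀ x ∈ nb V, J x = I x := fun x hx => if_pos hx
  have dL : Dat V L := by
    refine ⟨hb.dat.fin, fun x hx => ?_, (nb_finite hb.dat.fin).subset fun x hx => ?_⟩
    · by_cases h1 : x ∈ nb V
      · rw [hLin x h1]; exact (Dat_LW hb.dat.fin).bdd x hx
      · show (if x ∈ nb V then LW (j + 1) V x₀ r R x else {g₀ x}).Finite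
        rw [if_neg h1]; exact Set.finite_singleton _
    · by_contra h1
      apply hx
      show (if x ∈ nb V then LW (j + 1) V x₀ r R x else {g₀ x}).Subsingleton
      rw [if_neg h1]; exact Set.subsingleton_singleton
  have dJ : Dat V J := by
    refine ⟨hb.dat.fin, fun x hx => ?_, (nb_finite hb.dat.fin).subset fun x hx => ?_⟩
    · by_cases h1 : x ∈ nb V
      · rw [hJin x h1]; exact hb.dat.bdd x hx
      · show (if x ∈ nb V then I x else {g₀ x}).Finite
        rw [if_neg h1]; exact Set.finite_singleton _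
    · by_contra h1
      apply hx
      show (if x ∈ nb V then I x else {g₀ x}).Subsingleton
      rw [if_neg h1]; exact Set.subsingleton_singleton
  have nJ : (Cfg V J).Nonempty := by
    refine ⟨g₀, hg₀.1, fun x => ?_, hg₀.2.2⟩
    show g₀ x ∈ (if x ∈ nb V then I x else {g₀ x})
    split_ifs
    · exact hg₀.2.1 x
    · rfl
  have nL : (Cfg V L).Nonempty := by
    refine ⟨fun x => if x ∈ nb V then hL (j + 1) x₀ r R x else g₀ x, fun x => ?_, fun x => ?_,
      fun x hx y hxy => ?_⟩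
    · dsimp only
      split_ifs
      · exact hL_odd x
      · exact hg₀.1 x
    · show _ ∈ (if x ∈ nb V then LW (j + 1) V x₀ r R x else {g₀ x})
      dsimp only
      split_ifs with h1
      · exact hL_mem (j + 1) V x₀ r R x
      · rfl
    · obtain ⟨h1, h2⟩ := Tr.mem_nb_of_left hx hxy
      dsimp only
      rw [if_pos h1, if_pos h2]
      exact hL_adj hxy
  have nLW : (Cfg V (LW (j + 1) V x₀ r R)).Nonempty := ⟨_, hL_Cfg _ _ _ _ _⟩
  have fLW := Cfg_finite (Dat_LW (i := j + 1) (x₀ := x₀) (r := r) (R := R) hb.dat.fin)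
  -- the events live on `nb V`
  have hF : ∀ a b : Hg, (∀ x ∈ nb V, a x = b x) → ind (SepA V (V ∩ An x₀ r R) 1 p q) a =
      ind (SepA V (V ∩ An x₀ r R) 1 p q) b := by
    intro a b hab
    have h1 : a ∈ SepA V (V ∩ An x₀ r R) 1 p q ↔ b ∈ SepA V (V ∩ An x₀ r R) 1 p q :=
      SepA_congr fun x hx => hab x (Or.inl hx.1)
    unfold ind
    by_cases h2 : a ∈ SepA V (V ∩ An x₀ r R) 1 p q
    · rw [if_pos h2, if_pos (h1.1 h2)]
    · rw [if_neg h2, if_neg fun h3 => h2 (h1.2 h3)]
  have e1 : Pr (Cfg V (LW (j + 1) V x₀ r R)) (SepA V (V ∩ An x₀ r R) 1 p q) =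
      Pr (Cfg V L) (SepA V (V ∩ An x₀ r R) 1 p q) := by
    rw [Pr_eq_Ex fLW, Pr_eq_Ex (Cfg_finite dL)]
    exact Ex_off (Dat_LW hb.dat.fin) dL (fun x hx => (hLin x hx).symm) nLW nL hF
  have e2 : Pr (Cfg V I) (SepA V (V ∩ An x₀ r R) 1 p q) =
      Pr (Cfg V J) (SepA V (V ∩ An x₀ r R) 1 p q) := by
    rw [Pr_eq_Ex (Cfg_finite hb.dat), Pr_eq_Ex (Cfg_finite dJ)]
    exact Ex_off hb.dat dJ (fun x hx => (hJin x hx).symm) hb.ne nJ hF
  rw [e1, e2]
  have hIge : ∀ x ∈ ebd V, ∀ a ∈ I x, m < a := by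
    intro x hx a ha
    have h1 := hb.wall x hx a ha
    rw [hm]; push_cast; omega
  have hwr : ∀ x ∈ ebd V, Wr m 1 (I x) := by
    intro x hx a ha _
    have := hIge x hx a ha
    omega
  have hcmp : Cmp V L J m 1 := by
    refine ⟨hme, Or.inl rfl, dL, dJ, (nb_finite hb.dat.fin).subset fun x hx => ?_, nL, nJ,
      fun x => ?_⟩
    · by_contra h1
      apply hx
      show (if x ∈ nb V then LW (j + 1) V x₀ r R x else {g₀ x}) =
        (if x ∈ nb V then I x else {g₀ x})
      rw [if_neg h1, if_neg h1]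
    · by_cases hx : x ∈ nb V
      · left
        rw [hLin x hx, hJin x hx]
        rcases hx with hxV | hxe
        · have hSd : Sd m 1 (I x) := by
            rcases hb.offv x hxV with h1 | h1
            · rw [h1]; exact Sd_univ m 1
            · left
              intro a ha _
              have := h1 a ha
              rw [hm]; push_cast; omega
          unfold LW
          rw [if_pos hxV]
          split_ifs with hxA
          · rw [hb.inn x hxV hxA]
            exact SdLe.refl (Sd_univ m 1)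
          · exact SdLe_free hme (Or.inl rfl) hSd
        · have hxV : x ∉ V := hxe.1
          unfold LW
          rw [if_neg hxV, if_pos hxe]
          split_ifs with h1 h2
          · exact SdLe_free hme (Or.inl rfl) (Or.inl (hwr x hxe))
          · -- a singleton
            have hlow : ∀ b ∈ I x, -2 * ((j + 1 : ℕ) : ℤ) - 1 + 2 * dep x₀ r R x ≤ b := by
              intro b hb'
              by_cases hxA : x ∈ An x₀ r R
              · have h3 := (hb.wallA x hxe hxA 1 (by simp) b hb').1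
                simp only [Set.mem_insert_iff, Set.mem_singleton_iff] at h3
                have h4 : -1 ≤ b := by omega
                omega
              · have h3 := hb.wall x hxe b hb'
                have h4 : dep x₀ r R x ≤ 1 := by
                  rw [mem_An_iff] at hxA
                  unfold dep
                  omega
                push_cast; omega
            refine ⟨Sd_single (by rw [not_le] at h1; rw [hm]; omega), Or.inl (hwr x hxe),
              fun _ => hwr x hxe, fun a ha _ b hb' _ hlt => ?_⟩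
            exfalso
            rw [Set.mem_singleton_iff] at ha
            have h3 := hlow b hb'
            have h4 := hIge x hxe b hb'
            rw [abs_of_pos (by omega), abs_of_pos (by rw [ha, hm]; rw [not_le] at h1; omega)] at hlt
            omega
          · have hxA : x ∈ An x₀ r R := by
              rw [mem_An_iff]
              unfold dep at h2
              push_cast at h2
              omega
            refine ⟨Or.inl fun a ha _ => ?_, Or.inl (hwr x hxe), fun _ => hwr x hxe,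
              fun a ha _ b hb' _ hlt => ?_⟩
            · simp only [Set.mem_insert_iff, Set.mem_singleton_iff] at ha
              omega
            · have h3 := hb.wallA x hxe hxA
              have h5 := hIge x hxe b hb'
              have h6 : a = -1 ∨ a = 1 := ha
              have h7 : b < a := by
                rw [abs_of_pos (by omega), abs_of_pos (by omega)] at hlt
                omega
              have h8 := h3 a ha b hb'
              rw [min_eq_right h7.le, max_eq_left h7.le] at h8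
              refine ⟨⟨b, h8.1, ?_, rfl⟩, ⟨a, h8.2, ?_, rfl⟩⟩
              · rcases h8.1 with h9 | h9
                · rw [h9]; decide
                · rw [Set.mem_singleton_iff] at h9; rw [h9]; decide
              · rcases h6 with h9 | h9 <;> rw [h9] <;> decide
      · right
        refine ⟨hx, ?_, ?_⟩
        · show (if x ∈ nb V then LW (j + 1) V x₀ r R x else {g₀ x}) =
            (if x ∈ nb V then I x else {g₀ x})
          rw [if_neg hx, if_neg hx]
        · show (if x ∈ nb V then LW (j + 1) V x₀ r R x else {g₀ x}).Subsingleton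
          rw [if_neg hx]
          exact Set.subsingleton_singleton
  have key := md_Pr_mono0 hcmp (A := SepA V (V ∩ An x₀ r R) (1 - m) p q) SepA_upper
  have c1 : Pr (Cfg V L) (SepA V (V ∩ An x₀ r R) 1 p q) =
      Pr (Cfg V L) {g | md m g ∈ SepA V (V ∩ An x₀ r R) (1 - m) p q} := by
    refine Pr_congr fun g hg => SepA_md hm2 hg Set.inter_subset_left fun y hy z hz hyz => ?_
    have hze := mem_ebd_of_adj hy.1 hyz hz
    have h1 := hg.2.1 z
    rw [hLin z (Or.inr hze)] at h1
    unfold LW at h1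
    rw [if_neg hz, if_pos hze] at h1
    have h2 := ds_adj (x₀ := x₀) hyz
    rw [abs_le] at h2
    have h3 := mem_An_iff.1 hy.2
    have h4 : 1 ≤ dep x₀ r R z := by
      unfold dep
      omega
    rw [if_neg (by omega)] at h1
    split_ifs at h1 with h5
    · rw [Set.mem_singleton_iff] at h1
      rw [h1, hm]; omega
    · simp only [Set.mem_insert_iff, Set.mem_singleton_iff] at h1
      omega
  have c2 : Pr (Cfg V J) (SepA V (V ∩ An x₀ r R) 1 p q) =
      Pr (Cfg V J) {g | md m g ∈ SepA V (V ∩ An x₀ r R) (1 - m) p q} := by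
    refine Pr_congr fun g hg => SepA_md hm2 hg Set.inter_subset_left fun y hy z hz hyz => ?_
    have hze := mem_ebd_of_adj hy.1 hyz hz
    have h1 := hg.2.1 z
    rw [hJin z (Or.inr hze)] at h1
    exact hIge z hze _ h1
  rw [c1, c2]
  exact key

/-- The lowest law: landing gives the attached separating set. -/
theorem block_low {α : ℝ} (hV : CC V) (hp : NO V p) (hq : NO V q) (hi : 1 ≤ i)
    (hpr : p ∈ bx x₀ r) (h : α ≤ Pr (Cfg V (LW i V x₀ r R)) {h | ¬ Conn (V ∩ dn h (-1)) p q}) :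
    α ≤ Pr (Cfg V (LW i V x₀ r R)) (SepA V (V ∩ An x₀ r R) 1 p q) := by
  refine h.trans (Pr_mono fun g hg hgc => ?_)
  have hoff : ∀ x ∈ V, x ∉ An x₀ r R → g x < 1 := by
    intro x hx hxA
    have h1 := hg.2.1 x
    unfold LW at h1
    rw [if_pos hx, if_neg hxA] at h1
    simp only [Set.mem_insert_iff, Set.mem_singleton_iff] at h1
    omega
  refine mem_SepA hV odd_one hg.1 hp hq (hoff p hp.1 fun h1 => h1.2 hpr) (fun x hx hxB => ?_) ?_
  · exact hoff x hx fun h1 => hxB ⟨hx, h1⟩
  · have e : (1 : ℤ) - 2 = -1 := by norm_num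
    rw [e]
    exact hgc

/-- One block, all laws. -/
theorem block (hS : S_land (j + 1)) : ∃ α : ℝ, 0 < α ∧ ∃ N : ℤ, 1 ≤ N ∧ ∃ r₀ : ℤ, 1 ≤ r₀ ∧
    ∀ (V : Set Pt) (I : Pt → Set ℤ) (x₀ : Pt) (r : ℤ) (p q : Pt), CC V → x₀ ∉ V → r₀ ≤ r →
      NO V p → NO V q → p ∈ bx x₀ r → q ∉ bx x₀ (N * r) → Blk j V (An x₀ r (N * r)) I →
      α ≤ Pr (Cfg V I) (SepA V (V ∩ An x₀ r (N * r)) 1 p q) := by
  obtain ⟨α, hα, N, hN, r₀, hr₀, h⟩ := hS
  refine ⟨α, hα, N, hN, r₀, hr₀, fun V I x₀ r p q hV hx₀ hr hp hq hpr hqr hb => ?_⟩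
  exact (block_low hV hp hq (by omega) hpr (h V x₀ r p q hb.dat.fin hV hx₀ hr hp hq hpr hqr)).trans
    (block_le hb)

end Vale.Agent.P153.R2.LOC
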