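import Vale.Agent.P153.R2.LOC.Mir

/-!
# P153-R2, block LOC (MULT): power bounds, and the form with all walls of the annulus

`multE_lo`, `multE_hi`, `multE_ne`: the theorems of `Mir.lean` with the bound `θ ^ n` for
`L ^ (n + 1) ρ ≤ R`; the source `N` need not be next to the outside.
`mult_ne`: all sites of `V` random, all walls in the annulus `r < ds ≤ R` at the height `w`.
-/

namespace Vale.Agent.P153.R2.LOC

open Set Relation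
open Vale.Agent.P153
open Vale.Agent.P153.Topo (Conn)
open Vale.Agent.P153.R2
open scoped Classical

variable {V F B A C : Set Pt} {x₀ p q x y : Pt} {r R Rw m e c w : ℤ} {J : ℕ} {g h η : Hg}

/-- MULT from below at the level `w`, power bound. -/
theorem multE_lo (j : ℕ) (hS : S_land (j + 2)) : ∃ θ : ℝ, 0 ≤ θ ∧ θ < 1 ∧ ∃ L : ℤ, 2 ≤ L ∧
    ∃ ρ₀ : ℤ, 1 ≤ ρ₀ ∧
    ∀ (n : ℕ) (w : ℤ) (V F : Set Pt) (x₀ : Pt) (ρ R : ℤ) (p : Pt) (η : Hg) (N Q : Set Pt),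
      Odd w → TW V F x₀ ρ R p η → (∀ z ∈ ebd F, w - 2 * j - 2 ≤ η z) →
      (∀ z, z ∉ V → ∀ x ∈ Co V x₀ R p, Adj x z → ρ ≤ ds x₀ z → w ≤ η z) →
      x₀ ∉ V → ρ₀ ≤ ρ → L ^ (n + 1) * ρ ≤ R → p ∈ N →
      N ⊆ V → N ⊆ bx x₀ ρ → (∀ x ∈ N, Conn N p x) →
      Q ⊆ V → Disjoint Q (Co V x₀ R p) → (∀ x ∈ Q, ∀ y ∈ Q, Conn Q x y) →
      Pr (Cfg F (exa F η)) {h | ∃ x ∈ N, ∃ y ∈ Q,
        Conn (V \ Wat V (Co V x₀ R p ∩ An x₀ ρ R) w h) x y} ≤ θ ^ n := by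
  obtain ⟨θ, h0, h1, L, hL, ρ₀, hρ₀, H⟩ := multW_exp j hS
  refine ⟨θ, h0, h1, L, hL, ρ₀, hρ₀, fun n w V F x₀ ρ R p η N Q hw hT hlow hwall h1 h2 h3 h5 h6 h7
    h8 h9 h10 h11 => ?_⟩
  have hc : Even (1 - w) := odd_one.sub_odd hw
  have hT' := hT.aff (c := 1 - w) (Or.inl rfl) hc
  have key := H n V F x₀ ρ R p (aff 1 (1 - w) η) N Q
    ⟨hT'.fin, hT'.cc, hT'.sub, hT'.ne, fun z hz => by
      have := hlow z hz
      unfold aff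
      omega, hT'.inn, fun z hz x hx hxz hρz => by
      have := hwall z hz x hx hxz hρz
      unfold aff
      omega⟩ h1 h2 h3 h5 h6 h7 h8 h9 h10 h11
  rw [Pr_aff (Or.inl rfl) hc (hT.fin.subset hT.sub)] at key
  refine le_trans (Pr_mono fun h _ hh => ?_) key
  simp only [Set.mem_ofPred_eq, Wat_aff_pos] at hh ⊢
  exact hh

/-- MULT from above at the level `w`, power bound. -/
theorem multE_hi (j : ℕ) (hS : S_land (j + 2)) : ∃ θ : ℝ, 0 ≤ θ ∧ θ < 1 ∧ ∃ L : ℤ, 2 ≤ L ∧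
    ∃ ρ₀ : ℤ, 1 ≤ ρ₀ ∧
    ∀ (n : ℕ) (w : ℤ) (V F : Set Pt) (x₀ : Pt) (ρ R : ℤ) (p : Pt) (η : Hg) (N Q : Set Pt),
      Odd w → TW V F x₀ ρ R p η → (∀ z ∈ ebd F, η z ≤ w + 2 * j + 2) →
      (∀ z, z ∉ V → ∀ x ∈ Co V x₀ R p, Adj x z → ρ ≤ ds x₀ z → η z ≤ w) →
      x₀ ∉ V → ρ₀ ≤ ρ → L ^ (n + 1) * ρ ≤ R → p ∈ N →
      N ⊆ V → N ⊆ bx x₀ ρ → (∀ x ∈ N, Conn N p x) →
      Q ⊆ V → Disjoint Q (Co V x₀ R p) → (∀ x ∈ Q, ∀ y ∈ Q, Conn Q x y) →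
      Pr (Cfg F (exa F η)) {h | ∃ x ∈ N, ∃ y ∈ Q,
        Conn (V \ Wdn V (Co V x₀ R p ∩ An x₀ ρ R) w h) x y} ≤ θ ^ n := by
  obtain ⟨θ, h0, h1, L, hL, ρ₀, hρ₀, H⟩ := multW_exp j hS
  refine ⟨θ, h0, h1, L, hL, ρ₀, hρ₀, fun n w V F x₀ ρ R p η N Q hw hT hlow hwall h1 h2 h3 h5 h6 h7
    h8 h9 h10 h11 => ?_⟩
  have hc : Even (1 + w) := odd_one.add_odd hw
  have hT' := hT.aff (e := -1) (c := 1 + w) (Or.inr rfl) hc
  have key := H n V F x₀ ρ R p (aff (-1) (1 + w) η) N Q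
    ⟨hT'.fin, hT'.cc, hT'.sub, hT'.ne, fun z hz => by
      have := hlow z hz
      unfold aff
      omega, hT'.inn, fun z hz x hx hxz hρz => by
      have := hwall z hz x hx hxz hρz
      unfold aff
      omega⟩ h1 h2 h3 h5 h6 h7 h8 h9 h10 h11
  rw [Pr_aff (Or.inr rfl) hc (hT.fin.subset hT.sub)] at key
  refine le_trans (Pr_mono fun h _ hh => ?_) key
  simp only [Set.mem_ofPred_eq, Wat_aff_neg] at hh ⊢
  exact hh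

/-- MULT for `{h ≠ w}`, power bound. -/
theorem multE_ne (j : ℕ) (hS : S_land (j + 2)) : ∃ θ : ℝ, 0 ≤ θ ∧ θ < 1 ∧ ∃ L : ℤ, 2 ≤ L ∧
    ∃ ρ₀ : ℤ, 1 ≤ ρ₀ ∧
    ∀ (n : ℕ) (w : ℤ) (V F : Set Pt) (x₀ : Pt) (ρ R : ℤ) (p : Pt) (η : Hg) (N Q : Set Pt),
      Odd w → TW V F x₀ ρ R p η →
      (∀ z ∈ ebd F, w - 2 * j - 2 ≤ η z ∧ η z ≤ w + 2 * j + 2) →
      (∀ z, z ∉ V → ∀ x ∈ Co V x₀ R p, Adj x z → ρ ≤ ds x₀ z → η z = w) →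
      x₀ ∉ V → ρ₀ ≤ ρ → L ^ (n + 1) * ρ ≤ R → p ∈ N →
      N ⊆ V → N ⊆ bx x₀ ρ → (∀ x ∈ N, Conn N p x) →
      Q ⊆ V → Disjoint Q (Co V x₀ R p) → (∀ x ∈ Q, ∀ y ∈ Q, Conn Q x y) →
      Pr (Cfg F (exa F η)) {h | ∃ x ∈ N, ∃ y ∈ Q,
        Conn ((F ∩ {z | h z ≠ w}) ∪ {x, y}) x y} ≤ 2 * θ ^ n := by
  obtain ⟨θ₁, a0, a1, L₁, hL₁, ρ₁, hρ₁, H₁⟩ := multE_lo j hS
  obtain ⟨θ₂, b0, b1, L₂, hL₂, ρ₂, hρ₂, H₂⟩ := multE_hi j hS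
  refine ⟨max θ₁ θ₂, le_max_of_le_left a0, max_lt a1 b1, max L₁ L₂, le_max_of_le_left hL₁,
    max ρ₁ ρ₂, le_max_of_le_left hρ₁,
    fun n w V F x₀ ρ R p η N Q hw hT hlow hwall h1 h2 h3 h5 h6 h7 h8 h9 h10 h11 => ?_⟩
  have hρ0 : 0 ≤ ρ := by
    have := le_max_left ρ₁ ρ₂
    omega
  have hR1 : L₁ ^ (n + 1) * ρ ≤ R := le_trans (mul_le_mul_of_nonneg_right
    (pow_le_pow_left₀ (by omega) (le_max_left _ _) _) hρ0) h3
  have hR2 : L₂ ^ (n + 1) * ρ ≤ R := le_trans (mul_le_mul_of_nonneg_right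
    (pow_le_pow_left₀ (by omega) (le_max_right _ _) _) hρ0) h3
  have k1 := H₁ n w V F x₀ ρ R p η N Q hw hT (fun z hz => (hlow z hz).1)
    (fun z hz x hx hxz hρz => (hwall z hz x hx hxz hρz).ge) h1 (le_trans (le_max_left _ _) h2) hR1
    h5 h6 h7 h8 h9 h10 h11
  have k2 := H₂ n w V F x₀ ρ R p η N Q hw hT (fun z hz => (hlow z hz).2)
    (fun z hz x hx hxz hρz => (hwall z hz x hx hxz hρz).le) h1 (le_trans (le_max_right _ _) h2) hR2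
    h5 h6 h7 h8 h9 h10 h11
  have m1 : θ₁ ^ n ≤ (max θ₁ θ₂) ^ n := pow_le_pow_left₀ a0 (le_max_left _ _) n
  have m2 : θ₂ ^ n ≤ (max θ₁ θ₂) ^ n := pow_le_pow_left₀ b0 (le_max_right _ _) n
  set E₁ : Set Hg :=
    {h | ∃ x ∈ N, ∃ y ∈ Q, Conn (V \ Wat V (Co V x₀ R p ∩ An x₀ ρ R) w h) x y} with hE₁
  set E₂ : Set Hg :=
    {h | ∃ x ∈ N, ∃ y ∈ Q, Conn (V \ Wdn V (Co V x₀ R p ∩ An x₀ ρ R) w h) x y} with hE₂
  have k3 : Pr (Cfg F (exa F η)) (E₁ ∪ E₂) ≤ 2 * (max θ₁ θ₂) ^ n :=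
    (Pr_union_le _ _ _).trans (by linarith)
  refine (Pr_mono (B := E₁ ∪ E₂) fun g hg hh => ?_).trans k3
  obtain ⟨x, hx, y, hy, hxy⟩ := hh
  have hxo : x ∉ Co V x₀ R p ∩ An x₀ ρ R := fun h12 => by
    have h13 := (mem_An_iff.1 h12.2).1
    have h14 := mem_bx_iff.1 (h7 hx)
    omega
  have hyo : y ∉ Co V x₀ R p ∩ An x₀ ρ R := fun h12 => Set.disjoint_left.1 h10 hy h12.1
  rcases one_sign hg hw hxy with h12 | h12
  · left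
    refine ⟨x, hx, y, hy, h12.mono ?_⟩
    rintro z (hz | hz | hz)
    · refine ⟨hT.sub hz.1, fun h13 => ?_⟩
      have h14 : w ≤ g z := (Wat_subset h13).2
      have h15 : g z ≤ w - 2 := hz.2
      omega
    · subst hz
      exact ⟨h6 hx, fun h13 => hxo (Wat_subset h13).1⟩
    · rw [Set.mem_singleton_iff] at hz
      subst hz
      exact ⟨h9 hy, fun h13 => hyo (Wat_subset h13).1⟩
  · right
    refine ⟨x, hx, y, hy, h12.mono ?_⟩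
    rintro z (hz | hz | hz)
    · refine ⟨hT.sub hz.1, fun h13 => ?_⟩
      have h14 : g z ≤ w := (Wdn_subset h13).2
      have h15 : w + 2 ≤ g z := hz.2
      omega
    · subst hz
      exact ⟨h6 hx, fun h13 => hxo (Wdn_subset h13).1⟩
    · rw [Set.mem_singleton_iff] at hz
      subst hz
      exact ⟨h9 hy, fun h13 => hyo (Wdn_subset h13).1⟩

/-- **The form for `S_conn`.** All sites of `V` random, all the walls in the annulus `r < ds ≤ R`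
have the height `w`, all the data are in `[w - 2 j - 2, w + 2 j + 2]`. -/
theorem mult_ne (j : ℕ) (hS : S_land (j + 2)) : ∀ ε : ℝ, 0 < ε → ∃ t : ℤ, 1 ≤ t ∧ ∃ r₀ : ℤ,
    1 ≤ r₀ ∧ ∀ (w : ℤ) (V : Set Pt) (x₀ : Pt) (r R : ℤ) (η : Hg) (N Q : Set Pt),
      Odd w → V.Finite → CC V → (Cfg V (exa V η)).Nonempty →
      (∀ z ∈ ebd V, w - 2 * j - 2 ≤ η z ∧ η z ≤ w + 2 * j + 2) →
      (∀ z ∈ ebd V, z ∈ bx x₀ R → z ∉ bx x₀ r → η z = w) →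
      x₀ ∉ V → r₀ ≤ r → t * r ≤ R →
      N ⊆ V → N ⊆ bx x₀ r → (∀ x ∈ N, ∀ y ∈ N, Conn N x y) →
      Q ⊆ V → Disjoint Q (bx x₀ R) → (∀ x ∈ Q, ∀ y ∈ Q, Conn Q x y) →
      Pr (Cfg V (exa V η)) {h | ∃ x ∈ N, ∃ y ∈ Q, Conn (V ∩ {z | h z ≠ w}) x y} ≤ ε := by
  intro ε hε
  obtain ⟨θ, h0, h1, L, hL, ρ₀, hρ₀, H⟩ := multE_ne j hS
  obtain ⟨n, hn⟩ := exists_pow_lt_of_lt_one (half_pos hε) h1
  have hLn : 1 ≤ L ^ (n + 1) := one_le_pow₀ (by omega)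
  refine ⟨2 * L ^ (n + 1) + 1, by omega, ρ₀, hρ₀, fun w V x₀ r R η N Q hw hVf hV hne hdat hwall hx₀
    hr hR hNV hNb hNc hQV hQb hQc => ?_⟩
  by_cases hN : N.Nonempty
  swap
  · rw [Set.not_nonempty_iff_eq_empty] at hN
    subst hN
    have : {h : Hg | ∃ x ∈ (∅ : Set Pt), ∃ y ∈ Q, Conn (V ∩ {z | h z ≠ w}) x y} = ∅ := by
      ext h; simp
    rw [this]
    unfold Pr
    simp [hε.le]
  obtain ⟨p, hp⟩ := hN
  have hr1 : 1 ≤ r := hρ₀.trans hr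
  have hCQ : Disjoint Q (Co V x₀ (R - 1) p) := by
    rw [Set.disjoint_left]
    intro z hz hz'
    have h2 := (Co_subset hz').2
    exact Set.disjoint_left.1 hQb hz (by rw [mem_bx_iff] at h2 ⊢; omega)
  have key := H n w V V x₀ (r + 1) (R - 1) p η N Q hw ⟨hVf, hV, subset_rfl, hne,
      fun x hx _ => (Co_subset hx).1⟩ hdat
    (fun z hz x hx hxz hρz => by
      refine hwall z ⟨hz, x, (Co_subset hx).1, hxz⟩ ?_ ?_
      · have h2 := (Co_subset hx).2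
        have h3 := ds_adj (x₀ := x₀) hxz
        rw [mem_bx_iff] at h2 ⊢
        rw [abs_le] at h3
        omega
      · rw [mem_bx_iff]
        omega)
    hx₀ (by omega) (by nlinarith) hp hNV
    (fun z hz => by
      have := hNb hz
      rw [mem_bx_iff] at this ⊢
      omega) (hNc p hp) hQV hCQ hQc
  refine (Pr_mono fun h _ hh => ?_).trans (key.trans (by linarith))
  obtain ⟨x, hx, y, hy, hxy⟩ := hh
  exact ⟨x, hx, y, hy, hxy.mono fun z hz => Or.inl hz⟩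

end Vale.Agent.P153.R2.LOC
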