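import Vale.Agent.P153.R2.LOC.Block

/-!
# P153-R2, block LOC (MULT): many scales

If the walls in the annulus `ρ ≤ ds ≤ t ρ` have heights at least one and all the data are at least
`-(2 j + 1)`, then `{h ≤ -1}` joins a connected set inside to a connected set outside with small
probability.
-/

namespace Vale.Agent.P153.R2.LOC

open Set Relation
open Vale.Agent.P153
open Vale.Agent.P153.Topo (Conn)
open Vale.Agent.P153.R2
open scoped Classical

variable {V B A : Set Pt} {I : Pt → Set ℤ} {x₀ p q x y : Pt} {r R : ℤ} {i j : ℕ} {g h : Hg}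

/-- What is revealed in the block `B`: the attached part, its neighbours, and the sites next to the
outside. -/
def Rv (V B : Set Pt) (h : Hg) : Set Pt :=
  Wat V B 1 h ∪ {x | x ∈ B ∧ ∃ y ∈ Wat V B 1 h, Adj y x} ∪ {x | x ∈ B ∧ ∃ z, Adj x z ∧ z ∉ V}

theorem Rv_subset : Rv V B h ⊆ B := by
  rintro x ((h1 | h1) | h1)
  · exact (Wat_subset h1).1
  · exact h1.1
  · exact h1.1

theorem Wat_step (hx : x ∈ Wat V B 1 h) (hxy : Adj x y) (hyB : y ∈ B) (hy : 1 ≤ h y) :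
    y ∈ Wat V B 1 h := by
  obtain ⟨z, w, h1, h2, h3⟩ := hx
  have h4 : y ∈ B ∩ up h 1 := ⟨hyB, hy⟩
  exact ⟨z, w, (Conn.of_adj h4 h1.left_mem (Topo.adj_symm hxy)).trans h1, h2, h3⟩

theorem Wat_of_eq (hgh : ∀ x ∈ Rv V B h, g x = h x) : Wat V B 1 g = Wat V B 1 h := by
  apply Subset.antisymm
  · rintro x ⟨y, z, h1, h2, h3⟩
    refine Conn.ind (S := B ∩ up g 1) (fun u => u ∈ Wat V B 1 h) ?_ ?_ h1.symm
    · have hy : y ∈ Rv V B h := Or.inr ⟨h1.right_mem.1, z, h2, h3⟩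
      have h4 : 1 ≤ g y := h1.right_mem.2
      rw [hgh y hy] at h4
      exact ⟨y, z, Conn.refl ⟨h1.right_mem.1, h4⟩, h2, h3⟩
    · intro u v hu huv hv ih
      have h4 : v ∈ Rv V B h := Or.inl (Or.inr ⟨hv.1, u, ih, huv⟩)
      have h5 : 1 ≤ g v := hv.2
      rw [hgh v h4] at h5
      exact Wat_step ih huv hv.1 h5
  · rintro x hx
    obtain ⟨y, z, h1, h2, h3⟩ := hx
    have key : ∀ u, Conn (B ∩ up h 1) y u → Conn (B ∩ up g 1) y u := by
      intro u hu
      have hyW : y ∈ Wat V B 1 h := ⟨y, z, Conn.refl h1.right_mem, h2, h3⟩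
      have : Conn (B ∩ up g 1) y u ∧ u ∈ Wat V B 1 h := by
        refine Conn.ind (S := B ∩ up h 1)
          (fun u => Conn (B ∩ up g 1) y u ∧ u ∈ Wat V B 1 h) ⟨Conn.refl ⟨h1.right_mem.1, ?_⟩, hyW⟩
          ?_ hu
        · show 1 ≤ g y
          rw [hgh y (Or.inl (Or.inl hyW))]
          exact h1.right_mem.2
        · rintro u v hu' huv hv ⟨ih1, ih2⟩
          have h6 : v ∈ Wat V B 1 h := Wat_step ih2 huv hv.1 hv.2
          refine ⟨ih1.tail huv ⟨hv.1, ?_⟩, h6⟩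
          show 1 ≤ g v
          rw [hgh v (Or.inl (Or.inl h6))]
          exact hv.2
      exact this.1
    exact ⟨y, z, (key x h1.symm).symm, h2, h3⟩

theorem Rv_of_eq (hgh : ∀ x ∈ Rv V B h, g x = h x) : Rv V B g = Rv V B h := by
  unfold Rv
  rw [Wat_of_eq hgh]

/-- The revealed configuration. -/
noncomputable def rev (V B : Set Pt) (h : Hg) : Pt → Option ℤ := fun x =>
  if x ∈ Rv V B h then some (h x) else none

theorem rev_eq_iff : rev V B g = rev V B h ↔ ∀ x ∈ Rv V B h, g x = h x := by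
  constructor
  · intro h1 x hx
    have h2 := congrFun h1 x
    unfold rev at h2
    rw [if_pos hx] at h2
    split_ifs at h2 with h3
    simpa using h2
  · intro h1
    funext x
    unfold rev
    rw [Rv_of_eq h1]
    split_ifs with h2
    · rw [h1 x h2]
    · rfl

theorem rev_wat (h1 : rev V B g = rev V B h) : Wat V B 1 g = Wat V B 1 h :=
  Wat_of_eq (rev_eq_iff.1 h1)

/-- The law given what is revealed. -/
theorem fib_eq (V B : Set Pt) (I : Pt → Set ℤ) (h : Hg) :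
    Cfg V I ∩ {g | rev V B g = rev V B h} = Cfg V (cns I (Rv V B h) fun x => {h x}) := by
  rw [Cfg_cns]
  ext g
  simp only [Set.mem_inter_iff, Set.mem_ofPred_eq, rev_eq_iff, Set.mem_singleton_iff]

/-- The heights revealed are at least `-1`. -/
theorem rv_ge (hh : h ∈ Cfg V I) (hBV : B ⊆ V)
    (hw : ∀ y ∈ B, ∀ z, z ∉ V → Adj y z → 1 ≤ h z) (hx : x ∈ Rv V B h) : -1 ≤ h x := by
  rcases hx with (h1 | ⟨h1, y, h2, h3⟩) | ⟨h1, z, h2, h3⟩
  · have : 1 ≤ h x := (Wat_subset h1).2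
    omega
  · have h4 : 1 ≤ h y := (Wat_subset h2).2
    have h5 := hh.2.2 y (hBV (Wat_subset h2).1) x h3
    rw [abs_le] at h5
    omega
  · have h4 := hw x h1 z h3 h2
    have h5 := hh.2.2 x (hBV h1) z h2
    rw [abs_le] at h5
    omega

/-- Hypotheses for many annuli. -/
structure Mul (j : ℕ) (V : Set Pt) (x₀ : Pt) (N : ℤ) (r : ℕ → ℤ) (n : ℕ) (I : Pt → Set ℤ) :
    Prop where
  dat : Dat V I
  ne : (Cfg V I).Nonempty
  inn : ∀ k < n, ∀ x ∈ V, x ∈ An x₀ (r k) (N * r k) → I x = univ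
  offv : ∀ x ∈ V, I x = univ ∨ ∀ a ∈ I x, -(2 * (j : ℤ) + 1) ≤ a
  wall : ∀ x ∈ ebd V, ∀ a ∈ I x, -(2 * (j : ℤ) + 1) ≤ a
  wallA : ∀ k < n, ∀ x ∈ ebd V, r k ≤ ds x₀ x → ds x₀ x ≤ N * r k + 1 → ∀ a ∈ I x, 1 ≤ a

theorem SLe_of_ge {T : Set ℤ} (h : ∀ a ∈ T, 1 ≤ a) : SLe {-1, 1} T := by
  intro a ha b hb
  have h1 := h b hb
  simp only [Set.mem_insert_iff, Set.mem_singleton_iff] at ha
  rw [min_eq_left (by omega), max_eq_right (by omega)]
  exact ⟨ha, hb⟩

theorem mult_aux {α : ℝ} {N r₀ : ℤ} (_hα : 0 < α) (hN : 1 ≤ N) (hr₀ : 1 ≤ r₀)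
    (hblk : ∀ (V : Set Pt) (I : Pt → Set ℤ) (x₀ : Pt) (r : ℤ) (p q : Pt), CC V → x₀ ∉ V → r₀ ≤ r →
      NO V p → NO V q → p ∈ bx x₀ r → q ∉ bx x₀ (N * r) → Blk j V (An x₀ r (N * r)) I →
      α ≤ Pr (Cfg V I) (SepA V (V ∩ An x₀ r (N * r)) 1 p q))
    (hV : CC V) (hx₀ : x₀ ∉ V) (hp : NO V p) (hq : NO V q) :
    ∀ (n : ℕ) (r : ℕ → ℤ) (I : Pt → Set ℤ), (∀ k, r₀ ≤ r k) → (∀ k, N * r k ≤ r (k + 1)) →
      p ∈ bx x₀ (r 0) → (∀ k < n, q ∉ bx x₀ (N * r k)) → Mul j V x₀ N r n I →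
      Pr (Cfg V I) {h | ∀ k < n, h ∉ SepA V (V ∩ An x₀ (r k) (N * r k)) 1 p q} ≤
        (1 - α) ^ n := by
  intro n
  induction n with
  | zero =>
    intro r I _ _ _ _ _
    rw [pow_zero]
    exact Pr_le_one _ _
  | succ n ih =>
    intro r I hr hrr hpr hqr hM
    have fI := Cfg_finite hM.dat
    set B : Set Pt := V ∩ An x₀ (r 0) (N * r 0) with hB
    have hbk : Blk j V (An x₀ (r 0) (N * r 0)) I := by
      refine ⟨hM.dat, hM.ne, hM.inn 0 (Nat.succ_pos n), hM.offv, hM.wall, fun x hx hxA => ?_⟩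
      rw [mem_An_iff] at hxA
      exact SLe_of_ge (hM.wallA 0 (Nat.succ_pos n) x hx hxA.1.le (by omega))
    have h1 := hblk V I x₀ (r 0) p q hV hx₀ (hr 0) hp hq hpr (hqr 0 (Nat.succ_pos n)) hbk
    have h2 := Pr_add_compl fI hM.ne (SepA V B 1 p q)
    have h3 : Pr (Cfg V I) (SepA V B 1 p q)ᶜ ≤ 1 - α := by linarith
    have key := Pr_le_of_fiber fI (rev V B)
      {h | ∀ k < n, h ∉ SepA V (V ∩ An x₀ (r (k + 1)) (N * r (k + 1))) 1 p q}
      (SepA V B 1 p q)ᶜ (c := (1 - α) ^ n) ?_ ?_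
    · have h0 : (0 : ℝ) ≤ (1 - α) ^ n := by
        apply pow_nonneg
        have := Pr_nonneg (Cfg V I) (SepA V B 1 p q)ᶜ
        linarith
      calc Pr (Cfg V I) {h | ∀ k < n + 1, h ∉ SepA V (V ∩ An x₀ (r k) (N * r k)) 1 p q}
          ≤ Pr (Cfg V I) ((SepA V B 1 p q)ᶜ ∩
              {h | ∀ k < n, h ∉ SepA V (V ∩ An x₀ (r (k + 1)) (N * r (k + 1))) 1 p q}) :=
            Pr_mono fun h _ hh => ⟨hh 0 (Nat.succ_pos n), fun k hk => hh (k + 1) (by omega)⟩
        _ ≤ (1 - α) ^ n * Pr (Cfg V I) (SepA V B 1 p q)ᶜ := key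
        _ ≤ (1 - α) ^ n * (1 - α) := mul_le_mul_of_nonneg_left h3 h0
        _ = (1 - α) ^ (n + 1) := (pow_succ _ _).symm
    · intro a _ b _ hab
      show a ∉ SepA V B 1 p q ↔ b ∉ SepA V B 1 p q
      unfold SepA
      simp only [Set.mem_ofPred_eq]
      rw [rev_wat hab]
    · intro a ha _
      have e : {b | rev V B b = rev V B a} = {g | rev V B g = rev V B a} := rfl
      rw [fib_eq V B I a]
      have hBV : B ⊆ V := Set.inter_subset_left
      have hage : ∀ x ∈ Rv V B a, -1 ≤ a x := fun x hx =>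
        rv_ge ha hBV (fun y hy z hz hyz => by
          have hze := mem_ebd_of_adj hy.1 hyz hz
          have h5 := mem_An_iff.1 hy.2
          have h6 := ds_adj (x₀ := x₀) hyz
          rw [abs_le] at h6
          exact hM.wallA 0 (Nat.succ_pos n) z hze (by omega) (by omega) _ (ha.2.1 z)) hx
      have hcin : ∀ x ∈ Rv V B a, cns I (Rv V B a) (fun x => {a x}) x = I x ∩ {a x} :=
        fun x hx => if_pos hx
      have hcout : ∀ x, x ∉ Rv V B a → cns I (Rv V B a) (fun x => {a x}) x = I x :=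
        fun x hx => if_neg hx
      have hmono : ∀ k, r 0 ≤ r (k + 1) ∧ N * r 0 ≤ r (k + 1) := by
        intro k
        induction k with
        | zero =>
          have h5 := hrr 0
          have h6 := hr 0
          refine ⟨?_, h5⟩
          nlinarith
        | succ k ihk =>
          have h5 := hrr (k + 1)
          have h6 := hr (k + 1)
          constructor <;> nlinarith [ihk.1, ihk.2]
      have hRA : ∀ k, ∀ x ∈ V, x ∈ An x₀ (r (k + 1)) (N * r (k + 1)) → x ∉ Rv V B a := by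
        intro k x _ hxA hx
        have h5 := (Rv_subset hx).2
        rw [mem_An_iff] at h5 hxA
        have := (hmono k).2
        omega
      refine ih (fun k => r (k + 1)) _ (fun k => hr (k + 1)) (fun k => hrr (k + 1)) ?_
        (fun k hk => hqr (k + 1) (by omega)) ?_
      · rw [mem_bx_iff] at hpr ⊢
        exact hpr.trans (hmono 0).1
      · refine ⟨?_, ?_, ?_, ?_, ?_, ?_⟩
        · refine ⟨hM.dat.fin, fun x hx => ?_, hM.dat.cof.subset fun x hx => ?_⟩
          · rw [hcout x fun h5 => hx (hBV (Rv_subset h5))]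
            exact hM.dat.bdd x hx
          · intro h5
            apply hx
            by_cases h6 : x ∈ Rv V B a
            · rw [hcin x h6]
              exact Set.subsingleton_singleton.anti Set.inter_subset_right
            · rw [hcout x h6]; exact h5
        · refine ⟨a, ?_⟩
          rw [Cfg_cns]
          exact ⟨ha, fun x _ => rfl⟩
        · intro k hk x hxV hxA
          rw [hcout x (hRA k x hxV hxA)]
          exact hM.inn (k + 1) (by omega) x hxV hxA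
        · intro x hxV
          by_cases h6 : x ∈ Rv V B a
          · right
            intro b hb
            rw [hcin x h6] at hb
            have h7 : b = a x := hb.2
            have h8 := hage x h6
            rw [h7]
            omega
          · rw [hcout x h6]; exact hM.offv x hxV
        · intro x hx
          rw [hcout x fun h5 => hx.1 (hBV (Rv_subset h5))]
          exact hM.wall x hx
        · intro k hk x hx h5 h6
          rw [hcout x fun h7 => hx.1 (hBV (Rv_subset h7))]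
          exact hM.wallA (k + 1) (by omega) x hx h5 h6

/-- Hypotheses for one thick annulus `ρ < ds ≤ R`, walls at least one. -/
structure Thk (j : ℕ) (V : Set Pt) (x₀ : Pt) (ρ R : ℤ) (I : Pt → Set ℤ) : Prop where
  dat : Dat V I
  ne : (Cfg V I).Nonempty
  inn : ∀ x ∈ V, x ∈ An x₀ ρ R → I x = univ
  offv : ∀ x ∈ V, I x = univ ∨ ∀ a ∈ I x, -(2 * (j : ℤ) + 1) ≤ a
  wall : ∀ x ∈ ebd V, ∀ a ∈ I x, -(2 * (j : ℤ) + 1) ≤ a
  wallA : ∀ x ∈ ebd V, ρ ≤ ds x₀ x → ds x₀ x ≤ R → ∀ a ∈ I x, 1 ≤ a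

/-- **MULT.** Uniformly over all domains and data: a connected set `N` inside `ds ≤ ρ` is joined by
`{h ≤ -1}` to a connected set `Q` outside `ds ≤ R` with probability at most `ε`, if `R / ρ` is
large. -/
theorem mult (hS : S_land (j + 1)) : ∀ ε : ℝ, 0 < ε → ∃ t : ℤ, 1 ≤ t ∧ ∃ ρ₀ : ℤ, 1 ≤ ρ₀ ∧
    ∀ (V : Set Pt) (I : Pt → Set ℤ) (x₀ : Pt) (ρ R : ℤ) (p q : Pt) (N Q : Set Pt),
      CC V → x₀ ∉ V → ρ₀ ≤ ρ → t * ρ ≤ R → NO V p → NO V q → Thk j V x₀ ρ R I →
      N ⊆ V → N ⊆ bx x₀ ρ → (∀ x ∈ N, Conn N p x) → p ∈ N →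
      Q ⊆ V → Disjoint Q (bx x₀ R) → (∀ x ∈ Q, Conn Q q x) → q ∈ Q →
      Pr (Cfg V I) {h | ∃ x ∈ N, ∃ y ∈ Q, Conn (V ∩ dn h (-1)) x y} ≤ ε := by
  intro ε hε
  obtain ⟨α, hα, M, hM, r₀, hr₀, hblk⟩ := block hS
  have hα1 : α ≤ 1 ∨ ∀ (V : Set Pt) (I : Pt → Set ℤ) (x₀ : Pt) (r : ℤ) (p q : Pt), CC V →
      x₀ ∉ V → r₀ ≤ r → NO V p → NO V q → p ∈ bx x₀ r → q ∉ bx x₀ (M * r) →
      Blk j V (An x₀ r (M * r)) I → False := by
    by_cases h : α ≤ 1
    · exact Or.inl h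
    · right
      intro V I x₀ r p q h1 h2 h3 h4 h5 h6 h7 h8
      have h9 := hblk V I x₀ r p q h1 h2 h3 h4 h5 h6 h7 h8
      have h10 := Pr_le_one (Cfg V I) (SepA V (V ∩ An x₀ r (M * r)) 1 p q)
      linarith
  set β : ℝ := min α 1 with hβ
  have hβ0 : 0 < β := lt_min hα one_pos
  have hβ1 : β ≤ 1 := min_le_right _ _
  obtain ⟨n, hn⟩ := exists_pow_lt_of_lt_one hε (by linarith : 1 - β < 1)
  refine ⟨M ^ n + 1, by nlinarith [one_le_pow₀ (n := n) hM], r₀, hr₀, ?_⟩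
  intro V I x₀ ρ R p q N Q hV hx₀ hρ hR hp hq hT hNV hNb hNc hpN hQV hQb hQc hqQ
  have hρ1 : 1 ≤ ρ := hr₀.trans hρ
  have hMk : ∀ k, 1 ≤ M ^ k := fun k => one_le_pow₀ hM
  have hMkn : ∀ k ≤ n, M ^ k ≤ M ^ n := fun k hk => pow_le_pow_right₀ hM hk
  set r : ℕ → ℤ := fun k => M ^ k * ρ with hr
  have hrk : ∀ k, ρ ≤ r k := fun k => by
    show ρ ≤ M ^ k * ρ
    nlinarith [hMk k]
  have hrR : ∀ k < n, M * r k + 1 ≤ R := by
    intro k hk
    have h1 : M * r k = M ^ (k + 1) * ρ := by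
      show M * (M ^ k * ρ) = _
      ring
    rw [h1]
    have h2 := hMkn (k + 1) (by omega)
    nlinarith
  have hpb := hNb hpN
  rw [mem_bx_iff] at hpb
  have hqb : R < ds x₀ q := by
    by_contra h1
    push Not at h1
    exact Set.disjoint_left.1 hQb hqQ (mem_bx_iff.2 h1)
  have hmul : Mul j V x₀ M r n I := by
    refine ⟨hT.dat, hT.ne, fun k hk x hxV hxA => ?_, hT.offv, hT.wall,
      fun k hk x hx h1 h2 => ?_⟩
    · apply hT.inn x hxV
      rw [mem_An_iff] at hxA ⊢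
      have h3 := hrk k
      have h4 := hrR k hk
      omega
    · have h3 := hrk k
      have h4 := hrR k hk
      exact hT.wallA x hx (by omega) (by omega)
  have key := mult_aux (j := j) (α := β) hβ0 hM hr₀
    (fun V I x₀ r p q h1 h2 h3 h4 h5 h6 h7 h8 =>
      (min_le_left _ _).trans (hblk V I x₀ r p q h1 h2 h3 h4 h5 h6 h7 h8)) hV hx₀ hp hq n r I
    (fun k => hρ.trans (hrk k)) (fun k => by
      show M * (M ^ k * ρ) ≤ M ^ (k + 1) * ρ
      rw [pow_succ]; nlinarith)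
    (by rw [mem_bx_iff]; exact hpb.trans (hrk 0))
    (fun k hk => by rw [mem_bx_iff]; have := hrR k hk; omega) hmul
  refine (Pr_mono fun h _ hh => ?_).trans (key.trans hn.le)
  intro k hk hsep
  obtain ⟨x, hx, y, hy, hxy⟩ := hh
  refine SepA_sets (B := V ∩ An x₀ (r k) (M * r k)) hsep hNc hQc ?_ ?_
    (S := V ∩ dn h (-1)) Set.inter_subset_left ?_ hx hy hxy
  · intro z hz
    refine ⟨hNV hz, fun h1 => ?_⟩
    have h2 := hNb hz
    rw [mem_bx_iff] at h2
    have h3 := mem_An_iff.1 h1.2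
    have h4 := hrk k
    omega
  · intro z hz
    refine ⟨hQV hz, fun h1 => ?_⟩
    have h3 := mem_An_iff.1 h1.2
    have h4 := hrR k hk
    exact Set.disjoint_left.1 hQb hz (mem_bx_iff.2 (by omega))
  · intro z hz _
    have h2 : h z ≤ -1 := hz.2
    omega

end Vale.Agent.P153.R2.LOC
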