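import Vale.Agent.P153.R2.PLAN.Par
import Vale.Agent.P153.R2.Base.Basic

/-!
# P153-R2, block LOC: closed cochains on a simply connected set are coboundaries
-/

namespace Vale.Agent.P153.R2.LOC

open Set Relation
open Vale.Agent.P153
open Vale.Agent.P153.Topo (Conn)
open Vale.Agent.P153.R2
open Vale.Agent.P153.R2.PLAN
open scoped Classical

variable {K V : Set Pt} {s t r : Tri}

/-- `s` is joined to infinity by a dual path which crosses only edges with an end in `K`. -/
def Hin (K : Set Pt) (s : Tri) : Prop :=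
  ∃ c : Pt → Pt → ZMod 2, (∀ x y, c x y = c y x) ∧ (∀ r, PLAN.tsum c r = tind s r) ∧
    ∀ x y, x ∉ K → y ∉ K → c x y = 0

theorem Hin.trans (h : Hug K s t) (h' : Hin K t) : Hin K s := by
  obtain ⟨c, h1, h2, h3⟩ := h
  obtain ⟨d, h4, h5, h6⟩ := h'
  refine ⟨fun x y => c x y + d x y, fun x y => ?_, fun q => ?_, fun x y hx hy => ?_⟩
  · show c x y + d x y = c y x + d y x
    rw [h1 x y, h4 x y]
  · rw [PLAN.tsum_add, h2, h5]
    have := z2 (tind t q)
    linear_combination this
  · show c x y + d x y = 0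
    rw [h3 x y hx hy, h6 x y hx hy, add_zero]

theorem hin_ray {i j : ℤ} (h : ∀ a, i + 1 ≤ a → (a, j) ∈ K) : Hin K ((i, j), false) := by
  have h2 : (1 : ZMod 2) + 1 = 0 := rfl
  refine ⟨fun x y => if (x.2 = j ∧ y.2 = j + 1 ∧ i + 1 ≤ x.1) ∨
    (y.2 = j ∧ x.2 = j + 1 ∧ i + 1 ≤ y.1) then 1 else 0, fun x y => ?_, ?_, ?_⟩
  · dsimp only
    congr 1
    exact propext or_comm
  · rintro ⟨⟨a, b⟩, c⟩
    cases c
    · simp only [PLAN.tsum, tind, Prod.mk.injEq, and_true]
      by_cases hb : b = j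
      · subst hb
        by_cases h1 : i + 1 ≤ a
        · rw [if_neg (by omega), if_pos (by omega), if_pos (by omega), if_neg (by omega)]
          rfl
        · by_cases h3 : i = a
          · rw [if_neg (by omega), if_neg (by omega), if_pos (by omega), if_pos (by omega)]
            rfl
          · rw [if_neg (by omega), if_neg (by omega), if_neg (by omega), if_neg (by omega)]
            rfl
      · rw [if_neg (by omega), if_neg (by omega), if_neg (by omega), if_neg (by omega)]
        rfl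
    · simp only [PLAN.tsum, tind, Prod.mk.injEq, and_false, if_false, Bool.true_eq_false]
      by_cases hb : b = j ∧ i ≤ a
      · rw [if_pos (by omega), if_pos (by omega), if_neg (by omega)]
        rfl
      · rw [if_neg (by omega), if_neg (by omega), if_neg (by omega)]
        rfl
  · intro x y hx hy
    dsimp only
    rw [if_neg]
    rintro (⟨h1, h3, h4⟩ | ⟨h1, h3, h4⟩)
    · exact hx (by have := h x.1 h4; rw [← h1] at this; exact this)
    · exact hy (by have := h y.1 h4; rw [← h1] at this; exact this)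

theorem exists_far (hf : V.Finite) : ∃ i : ℤ, ∀ a, i + 1 ≤ a → (a, (0 : ℤ)) ∈ Vᶜ := by
  obtain ⟨B, hB⟩ := (hf.image Prod.fst).bddAbove
  refine ⟨B, fun a ha hV => ?_⟩
  have := hB ⟨_, hV, rfl⟩
  dsimp only at this
  omega

theorem hin_of (hV : CC V) (hf : V.Finite) {x : Pt} (hx : x ∈ cor s) (hxV : x ∉ V) :
    Hin Vᶜ s := by
  obtain ⟨i, hi⟩ := exists_far hf
  have h1 : ((i + 1, (0 : ℤ)) : Pt) ∉ V := hi (i + 1) le_rfl
  have h2 : ((i + 1, (0 : ℤ)) : Pt) ∈ cor ((i, 0), false) := by
    rw [cor_false]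
    simp
  exact Hin.trans (hug_of_conn (hV x (i + 1, 0) hxV h1) hx h2) (hin_ray hi)

theorem exists_sum (T : Finset Tri) (h : ∀ s ∈ T, Hin K s) :
    ∃ d : Pt → Pt → ZMod 2, (∀ x y, d x y = d y x) ∧ (∀ r, PLAN.tsum d r = if r ∈ T then 1 else 0) ∧
      ∀ x y, x ∉ K → y ∉ K → d x y = 0 := by
  induction T using Finset.induction_on with
  | empty =>
    refine ⟨fun _ _ => 0, fun _ _ => rfl, fun r => ?_, fun _ _ _ _ => rfl⟩
    obtain ⟨⟨i, j⟩, b⟩ := r
    cases b <;> simp [PLAN.tsum]
  | insert a T ha ih =>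
    obtain ⟨d, h1, h2, h3⟩ := ih fun s hs => h s (Finset.mem_insert_of_mem hs)
    obtain ⟨c, h4, h5, h6⟩ := h a (Finset.mem_insert_self _ _)
    refine ⟨fun x y => c x y + d x y, fun x y => ?_, fun q => ?_, fun x y hx hy => ?_⟩
    · show c x y + d x y = c y x + d y x
      rw [h4 x y, h1 x y]
    · rw [PLAN.tsum_add, h2, h5]
      unfold tind
      by_cases hq : q = a
      · subst hq
        rw [if_pos rfl, if_neg ha, if_pos (Finset.mem_insert_self _ _), add_zero]
      · rw [if_neg hq, zero_add]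
        simp only [Finset.mem_insert, hq, false_or]
    · show c x y + d x y = 0
      rw [h6 x y hx hy, h3 x y hx hy, add_zero]

theorem tri_finite (hf : V.Finite) : {r : Tri | ∃ x ∈ cor r, x ∈ V}.Finite := by
  have h1 : {r : Tri | ∃ x ∈ cor r, x ∈ V} ⊆
      ⋃ x ∈ V, (({x, (x.1 - 1, x.2), (x.1, x.2 - 1), (x.1 - 1, x.2 - 1)} : Set Pt) ×ˢ
        (Set.univ : Set Bool)) := by
    rintro ⟨⟨i, j⟩, b⟩ ⟨x, hx, hxV⟩
    simp only [Set.mem_iUnion]
    refine ⟨x, hxV, ?_, Set.mem_univ _⟩
    cases b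
    · rw [cor_false] at hx
      simp only [Finset.mem_insert, Finset.mem_singleton] at hx
      simp only [Set.mem_insert_iff, Set.mem_singleton_iff]
      rcases hx with rfl | rfl | rfl <;> simp
    · rw [cor_true] at hx
      simp only [Finset.mem_insert, Finset.mem_singleton] at hx
      simp only [Set.mem_insert_iff, Set.mem_singleton_iff]
      rcases hx with rfl | rfl | rfl <;> simp
  refine (hf.biUnion fun x _ => ?_).subset h1
  exact (Set.toFinite _).prod Set.finite_univ

/-- **Simply connected sets carry no cohomology.** -/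
theorem exists_pot (hV : CC V) (hf : V.Finite) (c : Pt → Pt → ZMod 2)
    (hs : ∀ x y, c x y = c y x) (hc : ∀ r : Tri, (∀ x ∈ cor r, x ∈ V) → PLAN.tsum c r = 0) :
    ∃ U : Pt → ZMod 2, ∀ x ∈ V, ∀ y ∈ V, Adj x y → c x y = U x + U y := by
  set c' : Pt → Pt → ZMod 2 := fun x y => if x ∈ V ∧ y ∈ V then c x y else 0 with hc'
  have hT : {r : Tri | PLAN.tsum c' r ≠ 0}.Finite := by
    refine (tri_finite hf).subset fun r hr => ?_
    by_contra h1
    apply hr
    have h2 : ∀ x ∈ cor r, x ∉ V := fun x hx hxV => h1 ⟨x, hx, hxV⟩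
    obtain ⟨⟨i, j⟩, b⟩ := r
    have h0 : ∀ x ∈ cor ((i, j), b), ∀ y, c' x y = 0 := by
      intro x hx y
      show (if x ∈ V ∧ y ∈ V then c x y else 0) = 0
      rw [if_neg fun h => h2 x hx h.1]
    cases b
    · rw [cor_false] at h0
      simp only [PLAN.tsum]
      rw [h0 (i, j) (by simp), h0 (i, j) (by simp), h0 (i + 1, j) (by simp)]
      rfl
    · rw [cor_true] at h0
      simp only [PLAN.tsum]
      rw [h0 (i + 1, j) (by simp), h0 (i + 1, j) (by simp), h0 (i, j + 1) (by simp)]
      rfl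
  obtain ⟨d, d1, d2, d3⟩ := exists_sum (K := Vᶜ) hT.toFinset (by
    intro r hr
    rw [Set.Finite.mem_toFinset] at hr
    by_contra hno
    apply hr
    have h2 : ∀ x ∈ cor r, x ∈ V := by
      intro x hx
      by_contra hxV
      exact hno (hin_of hV hf hx hxV)
    rw [← hc r h2]
    obtain ⟨⟨i, j⟩, b⟩ := r
    have h0 : ∀ x ∈ cor ((i, j), b), ∀ y ∈ cor ((i, j), b), c' x y = c x y := by
      intro x hx y hy
      show (if x ∈ V ∧ y ∈ V then c x y else 0) = c x y
      rw [if_pos ⟨h2 x hx, h2 y hy⟩]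
    cases b
    · rw [cor_false] at h0
      simp only [PLAN.tsum]
      rw [h0 (i, j) (by simp) (i + 1, j) (by simp), h0 (i, j) (by simp) (i, j + 1) (by simp),
        h0 (i + 1, j) (by simp) (i, j + 1) (by simp)]
    · rw [cor_true] at h0
      simp only [PLAN.tsum]
      rw [h0 (i + 1, j) (by simp) (i, j + 1) (by simp),
        h0 (i + 1, j) (by simp) (i + 1, j + 1) (by simp),
        h0 (i, j + 1) (by simp) (i + 1, j + 1) (by simp)])
  have z01 : ∀ a : ZMod 2, a ≠ 0 → a = 1 := by decide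
  have het : ∀ r, PLAN.tsum (fun x y => c' x y + d x y) r = 0 := by
    intro r
    rw [PLAN.tsum_add, d2]
    by_cases hr : PLAN.tsum c' r = 0
    · rw [hr, if_neg (by rw [Set.Finite.mem_toFinset]; exact fun h => h hr), add_zero]
    · rw [z01 _ hr, if_pos (by rw [Set.Finite.mem_toFinset]; exact hr)]
      rfl
  obtain ⟨U, hU⟩ := exists_cob (fun x y => c' x y + d x y)
    (fun x y => by
      show c' x y + d x y = c' y x + d y x
      rw [d1 x y]
      congr 1
      show (if x ∈ V ∧ y ∈ V then c x y else 0) = (if y ∈ V ∧ x ∈ V then c y x else 0)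
      rw [hs x y]
      congr 1
      exact propext and_comm)
    (fun i j => het ((i, j), false)) (fun i j => het ((i, j), true))
  refine ⟨U, fun x hx y hy hxy => ?_⟩
  rw [← hU x y hxy]
  show c x y = c' x y + d x y
  rw [d3 x y (fun h => h hx) (fun h => h hy), add_zero]
  show c x y = (if x ∈ V ∧ y ∈ V then c x y else 0)
  rw [if_pos ⟨hx, hy⟩]

end Vale.Agent.P153.R2.LOC
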